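import Vale.Agent.P141.H750.StageYG

/-!
# P141, line W: the stage sum for rectangular node matrices (hub with labels)

`A` square on `ι k`, `B` from `κ k` (hub with labels) to `ι k`, `C` from `ι k` to `κ k`. The three
matrices are padded by an isometry `E k : κ k × ι k` which intertwines the involutions.
`stageRect`: the hypotheses and the conclusion of `stageYG` in terms of the rectangular matrices.
-/

namespace Vale.Agent.P141.H750.NG

open Finset Matrix Vale.Agent.P075 Vale.Agent.P141.PL Vale.Agent.P141.PL.H588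
open Vale.Agent.P141.PL.H804 Vale.Agent.P141.H958 Vale.Agent.P141.H609 Vale.Agent.P141.H581

noncomputable section

set_option linter.unusedSectionVars false

section pad

variable {n p : Type*} [Fintype n] [DecidableEq n] [Fintype p] [DecidableEq p]
  {E : Matrix p n ℝ} {μ ν : ℝ}

theorem res_iso (hE : Eᵀ * E = 1) {X : Matrix n n ℝ} (hX : X.PosSemidef) :
    res (E * X * Eᵀ) = 1 - E * phi X * Eᵀ := by
  have h0 : (1 + X) * res X = 1 := by
    have hu : IsUnit (1 + X).det := by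
      have : (1 + X).PosDef := PosDef.add_posSemidef PosDef.one hX
      exact this.det_pos.ne'.isUnit
    exact Matrix.mul_nonsing_inv _ hu
  have h1 : X - phi X - X * phi X = 0 := by
    rw [phi]
    have : X - (1 - res X) - X * (1 - res X) = (1 + X) * res X - 1 := by noncomm_ring
    rw [this, h0, sub_self]
  rw [res]
  refine Matrix.inv_eq_right_inv ?_
  have e1 : (1 + E * X * Eᵀ) * (1 - E * phi X * Eᵀ)
      = 1 + (E * X * Eᵀ - E * phi X * Eᵀ - E * X * (Eᵀ * E) * phi X * Eᵀ) := by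
    simp only [Matrix.mul_sub, Matrix.add_mul, Matrix.one_mul, Matrix.mul_one, Matrix.mul_assoc]
    abel
  have e2 : E * X * Eᵀ - E * phi X * Eᵀ - E * X * (Eᵀ * E) * phi X * Eᵀ
      = E * (X - phi X - X * phi X) * Eᵀ := by
    rw [hE]
    simp only [Matrix.mul_sub, Matrix.sub_mul, Matrix.mul_one, Matrix.mul_assoc]
  rw [e1, e2, h1, Matrix.mul_zero, Matrix.zero_mul, add_zero]

theorem phi_iso (hE : Eᵀ * E = 1) {X : Matrix n n ℝ} (hX : X.PosSemidef) :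
    phi (E * X * Eᵀ) = E * phi X * Eᵀ := by
  rw [phi, res_iso hE hX]
  abel

theorem cap_iso (hE : Eᵀ * E = 1) {X : Matrix n n ℝ} (h : (1 - X).PosSemidef) :
    (1 - E * X * Eᵀ).PosSemidef := by
  have h1 : ((1 : Matrix p p ℝ) - E * Eᵀ).PosSemidef := by
    have hs : ((1 : Matrix p p ℝ) - E * Eᵀ)ᵀ = 1 - E * Eᵀ := by
      rw [transpose_sub, transpose_one, transpose_mul, transpose_transpose]
    have h2 := psd_sq hs
    have e : ((1 : Matrix p p ℝ) - E * Eᵀ) * (1 - E * Eᵀ) = 1 - E * Eᵀ := by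
      have e1 : ((1 : Matrix p p ℝ) - E * Eᵀ) * (1 - E * Eᵀ)
          = 1 - E * Eᵀ - E * Eᵀ + E * (Eᵀ * E) * Eᵀ := by
        simp only [Matrix.mul_sub, Matrix.sub_mul, Matrix.one_mul, Matrix.mul_one,
          Matrix.mul_assoc]
        abel
      rw [e1, hE, Matrix.mul_one]
      abel
    rwa [e] at h2
  have h3 := h1.add (psd_conj h E)
  have e : (1 : Matrix p p ℝ) - E * Eᵀ + E * (1 - X) * Eᵀ = 1 - E * X * Eᵀ := by
    rw [Matrix.mul_sub, Matrix.sub_mul, Matrix.mul_one]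
    abel
  rwa [e] at h3

theorem gramC_padA (hE : Eᵀ * E = 1) (A : Matrix n n ℝ) :
    gramC μ (E * A * Eᵀ) = E * gramC μ A * Eᵀ := by
  rw [gramC, gramC, transpose_mul, transpose_mul, transpose_transpose]
  have : E * (Aᵀ * Eᵀ) * (E * A * Eᵀ) = E * (Aᵀ * (Eᵀ * E) * A) * Eᵀ := by
    simp only [Matrix.mul_assoc]
  rw [this, hE, Matrix.mul_one, Matrix.mul_smul, Matrix.smul_mul]

theorem gramR_padA (hE : Eᵀ * E = 1) (A : Matrix n n ℝ) :
    gramR μ (E * A * Eᵀ) = E * gramR μ A * Eᵀ := by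
  rw [gramR, gramR, transpose_mul, transpose_mul, transpose_transpose]
  have : E * A * Eᵀ * (E * (Aᵀ * Eᵀ)) = E * (A * (Eᵀ * E) * Aᵀ) * Eᵀ := by
    simp only [Matrix.mul_assoc]
  rw [this, hE, Matrix.mul_one, Matrix.mul_smul, Matrix.smul_mul]

theorem gramC_padB (hE : Eᵀ * E = 1) (B : Matrix n p ℝ) :
    gramC μ (E * B) = μ • (Bᵀ * B) := by
  rw [gramC, transpose_mul]
  have : Bᵀ * Eᵀ * (E * B) = Bᵀ * (Eᵀ * E) * B := by simp only [Matrix.mul_assoc]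
  rw [this, hE, Matrix.mul_one]

theorem gramR_padB (B : Matrix n p ℝ) :
    gramR μ (E * B) = E * (μ • (B * Bᵀ)) * Eᵀ := by
  rw [gramR, transpose_mul]
  have : E * B * (Bᵀ * Eᵀ) = E * (B * Bᵀ) * Eᵀ := by simp only [Matrix.mul_assoc]
  rw [this, Matrix.mul_smul, Matrix.smul_mul]

theorem gramC_padC (C : Matrix p n ℝ) :
    gramC μ (C * Eᵀ) = E * (μ • (Cᵀ * C)) * Eᵀ := by
  rw [gramC, transpose_mul, transpose_transpose]
  have : E * Cᵀ * (C * Eᵀ) = E * (Cᵀ * C) * Eᵀ := by simp only [Matrix.mul_assoc]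
  rw [this, Matrix.mul_smul, Matrix.smul_mul]

theorem gramR_padC (hE : Eᵀ * E = 1) (C : Matrix p n ℝ) :
    gramR μ (C * Eᵀ) = μ • (C * Cᵀ) := by
  rw [gramR, transpose_mul, transpose_transpose]
  have : C * Eᵀ * (E * Cᵀ) = C * (Eᵀ * E) * Cᵀ := by simp only [Matrix.mul_assoc]
  rw [this, hE, Matrix.mul_one]

variable {h : Matrix p p ℝ} {h₀ : Matrix n n ℝ}

theorem inter_tr (hI : h * E = E * h₀) (hs : hᵀ = h) (hs₀ : h₀ᵀ = h₀) : Eᵀ * h = h₀ * Eᵀ := by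
  have := congrArg transpose hI
  rwa [transpose_mul, transpose_mul, hs, hs₀] at this

/-- `Eᵀ h E = h₀` -/
theorem inter_mid (hE : Eᵀ * E = 1) (hI : h * E = E * h₀) : Eᵀ * h * E = h₀ := by
  rw [Matrix.mul_assoc, hI, ← Matrix.mul_assoc, hE, Matrix.one_mul]

theorem T3_pad (hE : Eᵀ * E = 1) (hI : h * E = E * h₀) (A : Matrix n n ℝ) (B : Matrix n p ℝ)
    (C : Matrix p n ℝ) :
    T3 h (E * A * Eᵀ) (E * B) (C * Eᵀ) = (h₀ * A * h₀ * B * h * C).trace := by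
  rw [T3]
  have e : h * (E * A * Eᵀ) * h * (E * B) * h * (C * Eᵀ)
      = (h * E) * (A * (Eᵀ * h * E) * B * h * C) * Eᵀ := by
    simp only [Matrix.mul_assoc]
  rw [e, inter_mid hE hI, hI, trace_mul_comm]
  have e2 : Eᵀ * (E * h₀ * (A * h₀ * B * h * C)) = (Eᵀ * E) * (h₀ * (A * h₀ * B * h * C)) := by
    simp only [Matrix.mul_assoc]
  rw [e2, hE, Matrix.one_mul]
  simp only [Matrix.mul_assoc]

theorem tr_iso (hE : Eᵀ * E = 1) (hI : h * E = E * h₀) (P Q : Matrix n n ℝ) :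
    ((E * P * Eᵀ) * (h * (E * Q * Eᵀ) * h)).trace = (P * (h₀ * Q * h₀)).trace := by
  have e : (E * P * Eᵀ) * (h * (E * Q * Eᵀ) * h) = E * (P * (Eᵀ * h * E) * Q * Eᵀ * h) := by
    simp only [Matrix.mul_assoc]
  rw [e, inter_mid hE hI, trace_mul_comm]
  have e2 : P * h₀ * Q * Eᵀ * h * E = P * h₀ * Q * (Eᵀ * h * E) := by
    simp only [Matrix.mul_assoc]
  rw [e2, inter_mid hE hI]
  simp only [Matrix.mul_assoc]

theorem M2_padAB (hE : Eᵀ * E = 1) (hI : h * E = E * h₀) (hμ : 0 ≤ μ) (hν : 0 ≤ ν)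
    (A : Matrix n n ℝ) (B : Matrix n p ℝ) :
    M2 h μ ν (E * A * Eᵀ) (E * B) =
      (phi (gramC μ A) * (h₀ * phi (ν • (B * Bᵀ)) * h₀)).trace := by
  rw [M2, gramC_padA hE, gramR_padB, phi_iso hE (gramC_psd hμ A),
    phi_iso hE ((psd_mul_transpose B).smul hν), tr_iso hE hI]

theorem M2_padBC (hE : Eᵀ * E = 1) (B : Matrix n p ℝ) (C : Matrix p n ℝ) :
    M2 h μ ν (E * B) (C * Eᵀ) =
      (phi (μ • (Bᵀ * B)) * (h * phi (ν • (C * Cᵀ)) * h)).trace := by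
  rw [M2, gramC_padB hE, gramR_padC hE]

theorem M2_padCA (hE : Eᵀ * E = 1) (hI : h * E = E * h₀) (hμ : 0 ≤ μ) (hν : 0 ≤ ν)
    (A : Matrix n n ℝ) (C : Matrix p n ℝ) :
    M2 h μ ν (C * Eᵀ) (E * A * Eᵀ) =
      (phi (μ • (Cᵀ * C)) * (h₀ * phi (gramR ν A) * h₀)).trace := by
  rw [M2, gramC_padC, gramR_padA hE, phi_iso hE (gramR_psd hν A),
    phi_iso hE ((psd_transpose_mul C).smul hμ), tr_iso hE hI]

end pad

/-! ### Families -/

variable {ι κ : ℕ → Type} [∀ k, Fintype (ι k)] [∀ k, DecidableEq (ι k)] [∀ k, Fintype (κ k)]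
  [∀ k, DecidableEq (κ k)] {X : Type*}

/-- raw pair sum of `A` (columns) and `B` (rows), hub `ι` -/
def RAB (h₀ : ∀ k, Matrix (ι k) (ι k) ℝ) (I : Finset X) (N : ℕ) (s : X → ℕ → Finset Pt) (x y : ℝ)
    (A : X → ∀ k, Pt → Matrix (ι k) (ι k) ℝ) (B : X → ∀ k, Pt → Matrix (ι k) (κ k) ℝ) : ℝ :=
  ∑ i ∈ I, ∑ k ∈ Icc 1 N, ∑ m ∈ s i k, x ^ 2 * y ^ 2 * (4 ^ k *
    (phi (gramC ((x ^ 2)⁻¹ * (4 ^ k)⁻¹) (A i k m)) *
      (h₀ k * phi (((y ^ 2)⁻¹ * (4 ^ k)⁻¹) • (B i k m * (B i k m)ᵀ)) * h₀ k)).trace)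

/-- raw pair sum of `B` (columns) and `C` (rows), hub `κ` (with labels) -/
def RBC (h : ∀ k, Matrix (κ k) (κ k) ℝ) (I : Finset X) (N : ℕ) (s : X → ℕ → Finset Pt) (x y : ℝ)
    (B : X → ∀ k, Pt → Matrix (ι k) (κ k) ℝ) (C : X → ∀ k, Pt → Matrix (κ k) (ι k) ℝ) : ℝ :=
  ∑ i ∈ I, ∑ k ∈ Icc 1 N, ∑ m ∈ s i k, x ^ 2 * y ^ 2 * (4 ^ k *
    (phi (((x ^ 2)⁻¹ * (4 ^ k)⁻¹) • ((B i k m)ᵀ * B i k m)) *
      (h k * phi (((y ^ 2)⁻¹ * (4 ^ k)⁻¹) • (C i k m * (C i k m)ᵀ)) * h k)).trace)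

/-- raw pair sum of `C` (columns) and `A` (rows), hub `ι` -/
def RCA (h₀ : ∀ k, Matrix (ι k) (ι k) ℝ) (I : Finset X) (N : ℕ) (s : X → ℕ → Finset Pt) (x y : ℝ)
    (C : X → ∀ k, Pt → Matrix (κ k) (ι k) ℝ) (A : X → ∀ k, Pt → Matrix (ι k) (ι k) ℝ) : ℝ :=
  ∑ i ∈ I, ∑ k ∈ Icc 1 N, ∑ m ∈ s i k, x ^ 2 * y ^ 2 * (4 ^ k *
    (phi (((x ^ 2)⁻¹ * (4 ^ k)⁻¹) • ((C i k m)ᵀ * C i k m)) *
      (h₀ k * phi (gramR ((y ^ 2)⁻¹ * (4 ^ k)⁻¹) (A i k m)) * h₀ k)).trace)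

section rect

variable {h : ∀ k, Matrix (κ k) (κ k) ℝ} {h₀ : ∀ k, Matrix (ι k) (ι k) ℝ}
  {E : ∀ k, Matrix (κ k) (ι k) ℝ} {I : Finset X} {N : ℕ} {s : X → ℕ → Finset Pt} {τ cC : ℝ}
  {A : X → ∀ k, Pt → Matrix (ι k) (ι k) ℝ} {B : X → ∀ k, Pt → Matrix (ι k) (κ k) ℝ}
  {C : X → ∀ k, Pt → Matrix (κ k) (ι k) ℝ}

theorem RXg_padAB (hE : ∀ k, (E k)ᵀ * E k = 1) (hI : ∀ k, h k * E k = E k * h₀ k) (x y : ℝ) :
    RXg h I N s x y (fun i k m => E k * A i k m * (E k)ᵀ) (fun i k m => E k * B i k m) =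
      RAB h₀ I N s x y A B := by
  unfold RXg RPg RAB
  refine sum_congr rfl fun i _ => sum_congr rfl fun k _ => sum_congr rfl fun m _ => ?_
  rw [M2_padAB (hE k) (hI k) (by positivity) (by positivity)]

theorem RXg_padBC (hE : ∀ k, (E k)ᵀ * E k = 1) (x y : ℝ) :
    RXg h I N s x y (fun i k m => E k * B i k m) (fun i k m => C i k m * (E k)ᵀ) =
      RBC h I N s x y B C := by
  unfold RXg RPg RBC
  refine sum_congr rfl fun i _ => sum_congr rfl fun k _ => sum_congr rfl fun m _ => ?_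
  rw [M2_padBC (hE k)]

theorem RXg_padCA (hE : ∀ k, (E k)ᵀ * E k = 1) (hI : ∀ k, h k * E k = E k * h₀ k) (x y : ℝ) :
    RXg h I N s x y (fun i k m => C i k m * (E k)ᵀ) (fun i k m => E k * A i k m * (E k)ᵀ) =
      RCA h₀ I N s x y C A := by
  unfold RXg RPg RCA
  refine sum_congr rfl fun i _ => sum_congr rfl fun k _ => sum_congr rfl fun m _ => ?_
  rw [M2_padCA (hE k) (hI k) (by positivity) (by positivity)]

/-- **The stage sum for rectangular node matrices**, raw partners, summed over a family. -/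
theorem stageRect (hs : ∀ k, (h k)ᵀ = h k) (hq : ∀ k, h k * h k = 1)
    (hE : ∀ k, (E k)ᵀ * E k = 1) (hI : ∀ k, h k * E k = E k * h₀ k) (hτ : 0 < τ) (hC : 0 < cC)
    (capA : ∀ i ∈ I, ∀ k ∈ Icc 1 N, ∀ m ∈ s i k,
      (1 - gramC ((τ ^ 2)⁻¹ * (4 ^ k)⁻¹) (A i k m)).PosSemidef)
    (capB : ∀ i ∈ I, ∀ k ∈ Icc 1 N, ∀ m ∈ s i k,
      (1 - ((τ ^ 2)⁻¹ * (4 ^ k)⁻¹) • ((B i k m)ᵀ * B i k m)).PosSemidef)
    (capC : ∀ i ∈ I, ∀ k ∈ Icc 1 N, ∀ m ∈ s i k,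
      (1 - ((cC ^ 2)⁻¹ * (4 ^ k)⁻¹) • ((C i k m)ᵀ * C i k m)).PosSemidef)
    {P₀ P₁ QA QB Z κ' g σ e₂ : ℝ} (hP₀ : 0 ≤ P₀) (hQB0 : 0 ≤ QB)
    (hZ0 : 0 ≤ Z) (hκ : 0 ≤ κ') {D L₀ L₁ : ℕ}
    (hDσ : τ / 2 ^ (D - 1) ≤ σ) (hσ : σ ≤ e₂) (hL₀ : cC / 2 ^ (L₀ - 1) ≤ g)
    (hL₁ : cC / 2 ^ (L₁ - 1) ≤ e₂)
    (hAB : ∀ x, 0 < x → x ≤ τ → RAB h₀ I N s x x A B ≤ P₀ * x ^ 2)
    (hAB' : ∀ x, 0 < x → x ≤ e₂ → RAB h₀ I N s x x A B ≤ P₀ * x ^ 2)
    (hT : ∀ x, g ≤ x → x ≤ cC → √(RBC h I N s τ x B C * RCA h₀ I N s x τ C A) ≤ κ' * x)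
    (hQA : RCA h₀ I N s g τ C A ≤ QA) (hQB : RBC h I N s τ g B C ≤ QB)
    (hCA : ∀ x, e₂ ≤ x → x ≤ g → RCA h₀ I N s x σ C A ≤ P₁ * x ^ 2)
    (hZB : ∀ x, 0 < x → x ≤ e₂ → RBC h I N s x x B C ≤ Z * x ^ 2)
    (hZA : ∀ x, 0 < x → x ≤ e₂ → RCA h₀ I N s x x C A ≤ Z * x ^ 2) :
    ∑ i ∈ I, ∑ k ∈ Icc 1 N, ∑ m ∈ s i k,
      |(2 ^ k : ℝ)⁻¹ * (h₀ k * A i k m * h₀ k * B i k m * h k * C i k m).trace| ≤
      6 * κ' * L₀ + 6 * D * (√(P₀ * QA) + √(P₀ * QB)) +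
      6 * L₁ * √(P₁ * QB) + 54 * (P₀ + Z) * e₂ := by
  have main := stageYG (hh := h) (I := I) (N := N) (s := s) (τ := τ) (cC := cC)
    (FA := fun i k m => E k * A i k m * (E k)ᵀ) (FB := fun i k m => E k * B i k m)
    (FC := fun i k m => C i k m * (E k)ᵀ) (P₀ := P₀) (P₁ := P₁) (QA := QA) (QB := QB) (Z := Z)
    (κ' := κ') (g := g) (σ := σ) (e₂ := e₂) hs hq hτ hC
    (fun i hi k hk m hm => by
      rw [gramC_padA (hE k)]
      exact cap_iso (hE k) (capA i hi k hk m hm))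
    (fun i hi k hk m hm => by
      rw [gramC_padB (hE k)]
      exact capB i hi k hk m hm)
    (fun i hi k hk m hm => by
      rw [gramC_padC]
      exact cap_iso (hE k) (capC i hi k hk m hm))
    hP₀ hQB0 hZ0 hκ hDσ hσ hL₀ hL₁
    (fun x hx hx' => by rw [RXg_padAB hE hI]; exact hAB x hx hx')
    (fun x hx hx' => by rw [RXg_padAB hE hI]; exact hAB' x hx hx')
    (fun x hx hx' => by rw [RXg_padBC hE, RXg_padCA hE hI]; exact hT x hx hx')
    (by rw [RXg_padCA hE hI]; exact hQA) (by rw [RXg_padBC hE]; exact hQB)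
    (fun x hx hx' => by rw [RXg_padCA hE hI]; exact hCA x hx hx')
    (fun x hx hx' => by rw [RXg_padBC hE]; exact hZB x hx hx')
    (fun x hx hx' => by rw [RXg_padCA hE hI]; exact hZA x hx hx')
  rw [UXg_zero] at main
  refine le_trans (le_of_eq ?_) main
  refine sum_congr rfl fun i _ => sum_congr rfl fun k _ => sum_congr rfl fun m _ => ?_
  rw [T3_pad (hE k) (hI k)]

end rect

/-! ### The instance with labels -/

/-- the isometry which adds the label `l₀` -/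
def Eiso {n l : Type*} [DecidableEq n] [DecidableEq l] (l₀ : l) : Matrix (n × l) n ℝ :=
  fun i j => if i.1 = j ∧ i.2 = l₀ then 1 else 0

/-- the involution on `n × l` -/
def hlab {n : Type*} (l : Type*) [DecidableEq l] (h₀ : Matrix n n ℝ) :
    Matrix (n × l) (n × l) ℝ := fun i j => if i.2 = j.2 then h₀ i.1 j.1 else 0

section lab

variable {n l : Type*} [Fintype n] [DecidableEq n] [Fintype l] [DecidableEq l] (l₀ : l)
  {h₀ : Matrix n n ℝ}

theorem Eiso_iso : (Eiso (n := n) l₀)ᵀ * (Eiso (n := n) l₀) = 1 := by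
  ext i j
  rw [Matrix.mul_apply, Matrix.one_apply]
  simp only [transpose_apply, Eiso]
  rw [Fintype.sum_prod_type]
  by_cases hij : i = j
  · subst hij
    rw [if_pos rfl, Finset.sum_eq_single i]
    · rw [Finset.sum_eq_single l₀]
      · simp
      · intro b _ hb
        simp [hb]
      · simp
    · intro b _ hb
      refine Finset.sum_eq_zero fun a _ => ?_
      simp [hb]
    · simp
  · rw [if_neg hij]
    refine Finset.sum_eq_zero fun a _ => Finset.sum_eq_zero fun b _ => ?_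
    by_cases h1 : a = i
    · have h2 : ¬ a = j := fun h => hij (h1.symm.trans h)
      simp [h2]
    · simp [h1]

theorem hlab_symm (hs : h₀ᵀ = h₀) : (hlab l h₀)ᵀ = hlab l h₀ := by
  ext i j
  simp only [transpose_apply, hlab]
  by_cases h : i.2 = j.2
  · rw [if_pos h.symm, if_pos h]
    exact congrFun (congrFun hs i.1) j.1
  · rw [if_neg h, if_neg fun h' => h h'.symm]

theorem hlab_sq (hq : h₀ * h₀ = 1) : hlab l h₀ * hlab l h₀ = 1 := by
  ext i j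
  have h1 := congrFun (congrFun hq i.1) j.1
  rw [Matrix.mul_apply] at h1
  rw [Matrix.mul_apply, Fintype.sum_prod_type]
  simp only [hlab]
  have e : ∀ a : n, ∑ b : l, (if i.2 = b then h₀ i.1 a else 0) *
      (if b = j.2 then h₀ a j.1 else 0) = if i.2 = j.2 then h₀ i.1 a * h₀ a j.1 else 0 := by
    intro a
    rw [Finset.sum_eq_single i.2]
    · by_cases h : i.2 = j.2 <;> simp [h]
    · intro b _ hb
      rw [if_neg fun h => hb h.symm, zero_mul]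
    · simp
  rw [Finset.sum_congr rfl fun a _ => e a]
  by_cases h : i.2 = j.2
  · simp only [if_pos h]
    rw [h1, Matrix.one_apply, Matrix.one_apply]
    by_cases h2 : i.1 = j.1
    · rw [if_pos h2, if_pos (Prod.ext h2 h)]
    · rw [if_neg h2, if_neg fun h3 => h2 (congrArg Prod.fst h3)]
  · simp only [if_neg h, Finset.sum_const_zero]
    rw [Matrix.one_apply, if_neg fun h3 => h (congrArg Prod.snd h3)]

theorem hlab_inter : hlab l h₀ * (Eiso (n := n) l₀) = (Eiso (n := n) l₀) * h₀ := by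
  ext i j
  rw [Matrix.mul_apply, Matrix.mul_apply, Fintype.sum_prod_type]
  simp only [hlab, Eiso]
  have e : ∀ a : n, ∑ b : l, (if i.2 = b then h₀ i.1 a else 0) *
      (if a = j ∧ b = l₀ then (1 : ℝ) else 0) =
      (if a = j then (if i.2 = l₀ then h₀ i.1 a else 0) else 0) := by
    intro a
    rw [Finset.sum_eq_single i.2]
    · by_cases h : a = j <;> by_cases h' : i.2 = l₀ <;> simp [h, h']
    · intro b _ hb
      rw [if_neg fun h => hb h.symm, zero_mul]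
    · simp
  rw [Finset.sum_congr rfl fun a _ => e a, Finset.sum_ite_eq' univ j]
  have e2 : ∑ a : n, (if i.1 = a ∧ i.2 = l₀ then (1 : ℝ) else 0) * h₀ a j =
      if i.2 = l₀ then h₀ i.1 j else 0 := by
    rw [Finset.sum_eq_single i.1]
    · by_cases h : i.2 = l₀ <;> simp [h]
    · intro b _ hb
      rw [if_neg fun h => hb h.1.symm, zero_mul]
    · simp
  rw [e2]
  simp

end lab

end

end Vale.Agent.P141.H750.NG
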