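import Vale.Agent.P141.H581.StageX

/-!
# P141, line W: the step engine for arbitrary index types and involutions

The file `H609.NodeStep` (and the family version of `H581.StageX`) with the half matrices `hd k`
on `Ix k` replaced by symmetric involutions `hh k` on index types `ι k` (for example `Ix k × l`,
the hub with labels).
-/

namespace Vale.Agent.P141.H750.NG

open Finset Matrix Vale.Agent.P075 Vale.Agent.P141.PL Vale.Agent.P141.PL.H588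
open Vale.Agent.P141.PL.H804 Vale.Agent.P141.H958 Vale.Agent.P141.H609 Vale.Agent.P141.H581

noncomputable section

/-- a family of matrices at the nodes -/
abbrev NMg (ι : ℕ → Type) := (k : ℕ) → Pt → Matrix (ι k) (ι k) ℝ

variable {ι : ℕ → Type} [∀ k, Fintype (ι k)] [∀ k, DecidableEq (ι k)]

/-- The raw pair sum at the levels `x`, `y`. -/
def RPg (hh : ∀ k, Matrix (ι k) (ι k) ℝ) (N : ℕ) (s : ℕ → Finset Pt) (x y : ℝ)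
    (F H : NMg ι) : ℝ :=
  ∑ k ∈ Icc 1 N, ∑ m ∈ s k, x ^ 2 * y ^ 2 *
    (4 ^ k * M2 (hh k) ((x ^ 2)⁻¹ * (4 ^ k)⁻¹) ((y ^ 2)⁻¹ * (4 ^ k)⁻¹) (F k m) (H k m))

/-- The form with the three indices. -/
def UNg (hh : ∀ k, Matrix (ι k) (ι k) ℝ) (N : ℕ) (s : ℕ → Finset Pt) (cA cB cC : ℝ)
    (FA FB FC : NMg ι) (a b e : ℕ) : ℝ :=
  ∑ k ∈ Icc 1 N, ∑ m ∈ s k, |(2 ^ k : ℝ)⁻¹ *
    T3 (hh k) (rg ((cA ^ 2)⁻¹ * (4 ^ k)⁻¹) (FA k m) a) (rg ((cB ^ 2)⁻¹ * (4 ^ k)⁻¹) (FB k m) b)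
      (rg ((cC ^ 2)⁻¹ * (4 ^ k)⁻¹) (FC k m) e)|

section

variable {hh : ∀ k, Matrix (ι k) (ι k) ℝ} {N : ℕ} {s : ℕ → Finset Pt} {cA cB cC : ℝ}
  {FA FB FC F H : NMg ι}

theorem RPg_nonneg (hs : ∀ k, (hh k)ᵀ = hh k) {x y : ℝ} : 0 ≤ RPg hh N s x y F H :=
  sum_nonneg fun k _ => sum_nonneg fun m _ => mul_nonneg (by positivity)
    (mul_nonneg (by positivity) (M2_nonneg (hs _) (by positivity) (by positivity) _ _))

theorem RPg_mono (hs : ∀ k, (hh k)ᵀ = hh k) {x x' y y' : ℝ} (hx : 0 < x) (hy : 0 < y) (hxx : x ≤ x') (hyy : y ≤ y') :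
    RPg hh N s x y F H ≤ RPg hh N s x' y' F H := by
  refine sum_le_sum fun k _ => sum_le_sum fun m _ => ?_
  have hu : (0 : ℝ) ≤ (4 ^ k)⁻¹ := by positivity
  have h1 := satC_mono (F k m) hx hxx hu
  have h2 := satR_mono (H k m) hy hyy hu
  have hx' := hx.trans_le hxx
  have hy' := hy.trans_le hyy
  set P := phi (gramC ((x ^ 2)⁻¹ * (4 ^ k)⁻¹) (F k m))
  set P' := phi (gramC ((x' ^ 2)⁻¹ * (4 ^ k)⁻¹) (F k m))
  set Q := phi (gramR ((y ^ 2)⁻¹ * (4 ^ k)⁻¹) (H k m)) with hQ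
  set Q' := phi (gramR ((y' ^ 2)⁻¹ * (4 ^ k)⁻¹) (H k m)) with hQ'
  have pQ : (y ^ 2 • Q).PosSemidef :=
    (phi_psd (gramR_psd (by positivity) _)).smul (by positivity)
  have pP' : (x' ^ 2 • P').PosSemidef :=
    (phi_psd (gramC_psd (by positivity) _)).smul (by positivity)
  have i1 : ((x ^ 2 • P) * (hh k * (y ^ 2 • Q) * hh k)).trace ≤
      ((x' ^ 2 • P') * (hh k * (y ^ 2 • Q) * hh k)).trace :=
    trace_mul_le_left (psd_conj_symm pQ (hs k)) h1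
  have i2 : ((x' ^ 2 • P') * (hh k * (y ^ 2 • Q) * hh k)).trace ≤
      ((x' ^ 2 • P') * (hh k * (y' ^ 2 • Q') * hh k)).trace := by
    refine trace_mul_le_right pP' ?_
    have := psd_conj_symm h2 (hs k)
    rwa [Matrix.mul_sub, Matrix.sub_mul] at this
  have i3 := i1.trans i2
  have e : ∀ (p q : ℝ) (X Y : Matrix (ι k) (ι k) ℝ),
      ((p • X) * (hh k * (q • Y) * hh k)).trace = p * q * (X * (hh k * Y * hh k)).trace := by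
    intro p q X Y
    simp only [Matrix.mul_smul, Matrix.smul_mul, trace_smul, smul_eq_mul]
    ring
  rw [e, e] at i3
  have i4 := mul_le_mul_of_nonneg_left i3 (by positivity : (0 : ℝ) ≤ 4 ^ k)
  rw [M2, M2]
  linarith

/-- The raw pair sum is at most the one with the raw Gram matrix of `F`. -/
theorem RPg_le_lin (hs : ∀ k, (hh k)ᵀ = hh k) {x y : ℝ} (hx : 0 < x) :
    RPg hh N s x y F H ≤ ∑ k ∈ Icc 1 N, ∑ m ∈ s k, y ^ 2 *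
      (((F k m)ᵀ * F k m) *
        (hh k * phi (gramR ((y ^ 2)⁻¹ * (4 ^ k)⁻¹) (H k m)) * hh k)).trace := by
  refine sum_le_sum fun k _ => sum_le_sum fun m _ => ?_
  have hX : (gramC ((x ^ 2)⁻¹ * (4 ^ k)⁻¹) (F k m)).PosSemidef := gramC_psd (by positivity) _
  have pQ : (phi (gramR ((y ^ 2)⁻¹ * (4 ^ k)⁻¹) (H k m))).PosSemidef :=
    phi_psd (gramR_psd (by positivity) _)
  have h1 : (gramC ((x ^ 2)⁻¹ * (4 ^ k)⁻¹) (F k m) -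
      phi (gramC ((x ^ 2)⁻¹ * (4 ^ k)⁻¹) (F k m))).PosSemidef := phi_le_self hX
  have i1 := trace_mul_le_left (psd_conj_symm pQ (hs k)) h1
  rw [M2]
  have e1 : (gramC ((x ^ 2)⁻¹ * (4 ^ k)⁻¹) (F k m) *
      (hh k * phi (gramR ((y ^ 2)⁻¹ * (4 ^ k)⁻¹) (H k m)) * hh k)).trace =
      (x ^ 2)⁻¹ * (4 ^ k)⁻¹ * (((F k m)ᵀ * F k m) *
        (hh k * phi (gramR ((y ^ 2)⁻¹ * (4 ^ k)⁻¹) (H k m)) * hh k)).trace := by
    rw [gramC, Matrix.smul_mul, trace_smul, smul_eq_mul]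
  rw [e1] at i1
  have i2 := mul_le_mul_of_nonneg_left i1 (by positivity : (0 : ℝ) ≤ x ^ 2 * y ^ 2 * 4 ^ k)
  refine le_trans (le_of_eq ?_) (i2.trans (le_of_eq ?_))
  · ring
  · field_simp

/-- The raw pair sum is at most the one with the raw Gram matrix of `H`. -/
theorem RPg_le_lin' (hs : ∀ k, (hh k)ᵀ = hh k) {x y : ℝ} (hy : 0 < y) :
    RPg hh N s x y F H ≤ ∑ k ∈ Icc 1 N, ∑ m ∈ s k, x ^ 2 *
      (phi (gramC ((x ^ 2)⁻¹ * (4 ^ k)⁻¹) (F k m)) *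
        (hh k * (H k m * (H k m)ᵀ) * hh k)).trace := by
  refine sum_le_sum fun k _ => sum_le_sum fun m _ => ?_
  have hX : (gramR ((y ^ 2)⁻¹ * (4 ^ k)⁻¹) (H k m)).PosSemidef := gramR_psd (by positivity) _
  have pP : (phi (gramC ((x ^ 2)⁻¹ * (4 ^ k)⁻¹) (F k m))).PosSemidef :=
    phi_psd (gramC_psd (by positivity) _)
  have h1 := psd_conj_symm (phi_le_self hX) (hs k)
  rw [Matrix.mul_sub, Matrix.sub_mul] at h1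
  have i1 := trace_mul_le_right pP h1
  rw [M2]
  have e1 : (phi (gramC ((x ^ 2)⁻¹ * (4 ^ k)⁻¹) (F k m)) *
      (hh k * gramR ((y ^ 2)⁻¹ * (4 ^ k)⁻¹) (H k m) * hh k)).trace =
      (y ^ 2)⁻¹ * (4 ^ k)⁻¹ * (phi (gramC ((x ^ 2)⁻¹ * (4 ^ k)⁻¹) (F k m)) *
        (hh k * (H k m * (H k m)ᵀ) * hh k)).trace := by
    rw [gramR]
    simp only [Matrix.mul_smul, Matrix.smul_mul, trace_smul, smul_eq_mul]
  rw [e1] at i1
  have i2 := mul_le_mul_of_nonneg_left i1 (by positivity : (0 : ℝ) ≤ x ^ 2 * y ^ 2 * 4 ^ k)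
  refine le_trans (le_of_eq ?_) (i2.trans (le_of_eq ?_))
  · ring
  · field_simp

theorem UNg_nonneg (a b e : ℕ) : 0 ≤ UNg hh N s cA cB cC FA FB FC a b e :=
  sum_nonneg fun _ _ => sum_nonneg fun _ _ => abs_nonneg _

theorem UNg_cyc (a b e : ℕ) :
    UNg hh N s cA cB cC FA FB FC a b e = UNg hh N s cB cC cA FB FC FA b e a := by
  unfold UNg
  refine sum_congr rfl fun k _ => sum_congr rfl fun m _ => ?_
  rw [T3_cyc]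

/-- **A-step**: centre the first function, two raw pair sums. -/
theorem UNg_A (hs : ∀ k, (hh k)ᵀ = hh k) (hq : ∀ k, hh k * hh k = 1) 
    (hA : 0 < cA) (hB : 0 < cB) (hC : 0 < cC)
    (capA : ∀ k ∈ Icc 1 N, ∀ m ∈ s k, (1 - gramC ((cA ^ 2)⁻¹ * (4 ^ k)⁻¹) (FA k m)).PosSemidef)
    (capB : ∀ k ∈ Icc 1 N, ∀ m ∈ s k, (1 - gramC ((cB ^ 2)⁻¹ * (4 ^ k)⁻¹) (FB k m)).PosSemidef)
    (capC : ∀ k ∈ Icc 1 N, ∀ m ∈ s k, (1 - gramC ((cC ^ 2)⁻¹ * (4 ^ k)⁻¹) (FC k m)).PosSemidef)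
    (a b e : ℕ) {x y : ℝ}
    (hx : RPg hh N s (cC / 2 ^ (e - 1)) (cA / 2 ^ (a - 1)) FC FA ≤ x)
    (hy : RPg hh N s (cA / 2 ^ (a - 1)) (cB / 2 ^ (b - 1)) FA FB ≤ y) :
    UNg hh N s cA cB cC FA FB FC a b e ≤ UNg hh N s cA cB cC FA FB FC (a + 1) b e +
      6 * ((cA / 2 ^ (a - 1))⁻¹ * √(x * y)) := by
  have h₀ : 0 < (cA ^ 2)⁻¹ := by positivity
  have h₁ : 0 < (cB ^ 2)⁻¹ := by positivity
  have h₂ : 0 < (cC ^ 2)⁻¹ := by positivity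
  have a0 := lv_pos hA a
  have a1 := lv_pos hB b
  have a2 := lv_pos hC e
  have hk4 : ∀ k : ℕ, (0 : ℝ) < (4 ^ k)⁻¹ := fun k => by positivity
  set xA := cA / 2 ^ (a - 1) with hxA
  set xB := cB / 2 ^ (b - 1) with hxB
  set xC := cC / 2 ^ (e - 1) with hxC
  have pA : 0 < xA := by positivity
  have pB : 0 < xB := by positivity
  have pC : 0 < xC := by positivity
  have vA : lv cA a = (xA ^ 2)⁻¹ := lv_inv hA a
  have vB : lv cB b = (xB ^ 2)⁻¹ := lv_inv hB b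
  have vC : lv cC e = (xC ^ 2)⁻¹ := lv_inv hC e
  unfold UNg
  refine diff_le _ _ (fun k m => (2 ^ k : ℝ)⁻¹ *
    T3 (hh k) (pc ((cA ^ 2)⁻¹ * (4 ^ k)⁻¹) (FA k m) a) (rg ((cB ^ 2)⁻¹ * (4 ^ k)⁻¹) (FB k m) b)
      (rg ((cC ^ 2)⁻¹ * (4 ^ k)⁻¹) (FC k m) e)) (fun k m => ?_) ?_
  · rw [pc_eq, T3_sub_left]
    ring
  · refine (core2s _ (fun k m => xC ^ 2 * xA ^ 2 * (4 ^ k * M2 (hh k) ((xC ^ 2)⁻¹ * (4 ^ k)⁻¹)
        ((xA ^ 2)⁻¹ * (4 ^ k)⁻¹) (FC k m) (FA k m)))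
      (fun k m => xA ^ 2 * xB ^ 2 * (4 ^ k * M2 (hh k) ((xA ^ 2)⁻¹ * (4 ^ k)⁻¹)
        ((xB ^ 2)⁻¹ * (4 ^ k)⁻¹) (FA k m) (FB k m))) (w := xA⁻¹) (by positivity)
      (fun k m => mul_nonneg (by positivity) (mul_nonneg (by positivity)
        (M2_nonneg (hs _) (by positivity) (by positivity) _ _)))
      (fun k m => mul_nonneg (by positivity) (mul_nonneg (by positivity)
        (M2_nonneg (hs _) (by positivity) (by positivity) _ _))) ?_ hx hy)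
    intro k hk m hm
    have hb := T3_st_sq_le (hs k) (hq k) (mul_pos h₀ (hk4 k)) (mul_pos h₁ (hk4 k))
      (mul_pos h₂ (hk4 k)) (capA k hk m hm) (capB k hk m hm) (capC k hk m hm) a b e
    simp only [lw_mul'] at hb
    have hc := scale_sq a0 a1 a2 hb
    refine hc.trans (le_of_eq ?_)
    change 36 * (lv cA a * lv cB b * lv cC e)⁻¹ * (4 ^ k * M2 (hh k) (lv cC e * (4 ^ k)⁻¹)
      (lv cA a * (4 ^ k)⁻¹) (FC k m) (FA k m) * (4 ^ k * M2 (hh k) (lv cA a * (4 ^ k)⁻¹)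
      (lv cB b * (4 ^ k)⁻¹) (FA k m) (FB k m))) = _
    rw [vA, vB, vC]
    generalize M2 (hh k) ((xC ^ 2)⁻¹ * (4 ^ k)⁻¹) ((xA ^ 2)⁻¹ * (4 ^ k)⁻¹) (FC k m) (FA k m) = M
    generalize M2 (hh k) ((xA ^ 2)⁻¹ * (4 ^ k)⁻¹) ((xB ^ 2)⁻¹ * (4 ^ k)⁻¹) (FA k m) (FB k m) = M'
    field_simp

theorem UNg_B (hs : ∀ k, (hh k)ᵀ = hh k) (hq : ∀ k, hh k * hh k = 1) 
    (hA : 0 < cA) (hB : 0 < cB) (hC : 0 < cC)
    (capA : ∀ k ∈ Icc 1 N, ∀ m ∈ s k, (1 - gramC ((cA ^ 2)⁻¹ * (4 ^ k)⁻¹) (FA k m)).PosSemidef)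
    (capB : ∀ k ∈ Icc 1 N, ∀ m ∈ s k, (1 - gramC ((cB ^ 2)⁻¹ * (4 ^ k)⁻¹) (FB k m)).PosSemidef)
    (capC : ∀ k ∈ Icc 1 N, ∀ m ∈ s k, (1 - gramC ((cC ^ 2)⁻¹ * (4 ^ k)⁻¹) (FC k m)).PosSemidef)
    (a b e : ℕ) {x y : ℝ}
    (hx : RPg hh N s (cA / 2 ^ (a - 1)) (cB / 2 ^ (b - 1)) FA FB ≤ x)
    (hy : RPg hh N s (cB / 2 ^ (b - 1)) (cC / 2 ^ (e - 1)) FB FC ≤ y) :
    UNg hh N s cA cB cC FA FB FC a b e ≤ UNg hh N s cA cB cC FA FB FC a (b + 1) e +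
      6 * ((cB / 2 ^ (b - 1))⁻¹ * √(x * y)) := by
  rw [UNg_cyc, UNg_cyc (b := b + 1)]
  exact UNg_A hs hq hB hC hA capB capC capA b e a hx hy

theorem UNg_C (hs : ∀ k, (hh k)ᵀ = hh k) (hq : ∀ k, hh k * hh k = 1) 
    (hA : 0 < cA) (hB : 0 < cB) (hC : 0 < cC)
    (capA : ∀ k ∈ Icc 1 N, ∀ m ∈ s k, (1 - gramC ((cA ^ 2)⁻¹ * (4 ^ k)⁻¹) (FA k m)).PosSemidef)
    (capB : ∀ k ∈ Icc 1 N, ∀ m ∈ s k, (1 - gramC ((cB ^ 2)⁻¹ * (4 ^ k)⁻¹) (FB k m)).PosSemidef)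
    (capC : ∀ k ∈ Icc 1 N, ∀ m ∈ s k, (1 - gramC ((cC ^ 2)⁻¹ * (4 ^ k)⁻¹) (FC k m)).PosSemidef)
    (a b e : ℕ) {x y : ℝ}
    (hx : RPg hh N s (cB / 2 ^ (b - 1)) (cC / 2 ^ (e - 1)) FB FC ≤ x)
    (hy : RPg hh N s (cC / 2 ^ (e - 1)) (cA / 2 ^ (a - 1)) FC FA ≤ y) :
    UNg hh N s cA cB cC FA FB FC a b e ≤ UNg hh N s cA cB cC FA FB FC a b (e + 1) +
      6 * ((cC / 2 ^ (e - 1))⁻¹ * √(x * y)) := by
  rw [UNg_cyc, UNg_cyc (e := e + 1), UNg_cyc, UNg_cyc (b := e + 1)]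
  exact UNg_A hs hq hC hA hB capC capA capB e a b hx hy

/-- Decay in the sum of the three indices. -/
theorem UNg_tail (hs : ∀ k, (hh k)ᵀ = hh k) (hq : ∀ k, hh k * hh k = 1) 
    (hA : 0 < cA) (hB : 0 < cB) (hC : 0 < cC)
    (capA : ∀ k ∈ Icc 1 N, ∀ m ∈ s k, (1 - gramC ((cA ^ 2)⁻¹ * (4 ^ k)⁻¹) (FA k m)).PosSemidef)
    (capB : ∀ k ∈ Icc 1 N, ∀ m ∈ s k, (1 - gramC ((cB ^ 2)⁻¹ * (4 ^ k)⁻¹) (FB k m)).PosSemidef)
    (capC : ∀ k ∈ Icc 1 N, ∀ m ∈ s k, (1 - gramC ((cC ^ 2)⁻¹ * (4 ^ k)⁻¹) (FC k m)).PosSemidef) :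
    ∃ K : ℝ, 0 ≤ K ∧ ∀ a b e : ℕ,
      UNg hh N s cA cB cC FA FB FC a b e ≤ K * (2 ^ (a + b + e))⁻¹ := by
  have h₀ : 0 < (cA ^ 2)⁻¹ := by positivity
  have h₁ : 0 < (cB ^ 2)⁻¹ := by positivity
  have h₂ : 0 < (cC ^ 2)⁻¹ := by positivity
  have q : ∀ k : ℕ, (0 : ℝ) < (4 ^ k)⁻¹ := fun k => by positivity
  set κ : ℝ → ℕ → ℝ := fun x k =>
    √(4 * ((x ^ 2)⁻¹ * (4 ^ k)⁻¹)⁻¹ * (Fintype.card (ι k) : ℝ)) with hκ
  set κ' : ℝ → ℕ → ℝ := fun x k => √(4 * ((x ^ 2)⁻¹ * (4 ^ k)⁻¹)⁻¹) with hκ'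
  have nκ : ∀ x k, 0 ≤ κ x k := fun x k => Real.sqrt_nonneg _
  have nκ' : ∀ x k, 0 ≤ κ' x k := fun x k => Real.sqrt_nonneg _
  refine ⟨∑ k ∈ Icc 1 N, ∑ m ∈ s k, (2 ^ k : ℝ)⁻¹ * (κ' cA k * (κ cB k * κ cC k)),
    sum_nonneg fun k _ => sum_nonneg fun m _ => ?_, fun a b e => ?_⟩
  · have := nκ' cA k
    have := nκ cB k
    have := nκ cC k
    positivity
  unfold UNg
  rw [sum_mul]
  refine sum_le_sum fun k hk => ?_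
  rw [sum_mul]
  refine sum_le_sum fun m hm => ?_
  have h2k : (0 : ℝ) < (2 ^ k)⁻¹ := by positivity
  rw [abs_mul, abs_of_pos h2k, mul_assoc ((2 ^ k : ℝ)⁻¹)]
  refine mul_le_mul_of_nonneg_left ?_ h2k.le
  have dB := hs_rg_decay (mul_pos h₁ (q k)) (capB k hk m hm) b
  have dC := hs_rg_decay (mul_pos h₂ (q k)) (capC k hk m hm) e
  have oA := rg_op (mul_pos h₀ (q k)) (capA k hk m hm) a
  have dA : √(4 * ((4 : ℝ) ^ a * ((cA ^ 2)⁻¹ * (4 ^ k)⁻¹))⁻¹) = κ' cA k * (2 ^ a)⁻¹ := by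
    have h4 : ((4 : ℝ) ^ a)⁻¹ = ((2 ^ a)⁻¹) ^ 2 := by
      rw [inv_pow, ← pow_mul, mul_comm a 2, pow_mul]; norm_num
    have e1 : 4 * ((4 : ℝ) ^ a * ((cA ^ 2)⁻¹ * (4 ^ k)⁻¹))⁻¹ =
        (4 * ((cA ^ 2)⁻¹ * (4 ^ k)⁻¹)⁻¹) * ((2 ^ a)⁻¹) ^ 2 := by
      rw [mul_inv, h4]
      ring
    rw [e1, Real.sqrt_mul (by positivity), Real.sqrt_sq (by positivity)]
  have h := T3_op_le (hs k) (hq k) (by positivity :
    (0 : ℝ) ≤ 4 * ((4 : ℝ) ^ a * ((cA ^ 2)⁻¹ * (4 ^ k)⁻¹))⁻¹) oA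
    (le_refl ((rg ((cB ^ 2)⁻¹ * (4 ^ k)⁻¹) (FB k m) b)ᵀ *
      rg ((cB ^ 2)⁻¹ * (4 ^ k)⁻¹) (FB k m) b).trace)
    (le_refl ((rg ((cC ^ 2)⁻¹ * (4 ^ k)⁻¹) (FC k m) e)ᵀ *
      rg ((cC ^ 2)⁻¹ * (4 ^ k)⁻¹) (FC k m) e).trace)
  refine h.trans ?_
  rw [dA]
  have m1 := mul_le_mul dB dC (Real.sqrt_nonneg _) (by positivity)
  have m2 := mul_le_mul_of_nonneg_left m1 (mul_nonneg (nκ' cA k) (by positivity :
    (0 : ℝ) ≤ (2 ^ a)⁻¹))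
  refine m2.trans (le_of_eq ?_)
  rw [hκ]
  simp only
  rw [pow_add, pow_add, mul_inv, mul_inv]
  ring

end


section family

variable {X : Type*} {hh : ∀ k, Matrix (ι k) (ι k) ℝ} {I : Finset X} {N : ℕ}
  {s : X → ℕ → Finset Pt} {τ cC : ℝ} {FA FB FC F H : X → NMg ι}

/-- the raw pair sum of a family -/
def RXg (hh : ∀ k, Matrix (ι k) (ι k) ℝ) (I : Finset X) (N : ℕ) (s : X → ℕ → Finset Pt)
    (x y : ℝ) (F H : X → NMg ι) : ℝ :=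
  ∑ i ∈ I, RPg hh N (s i) x y (F i) (H i)

/-- the form of a family -/
def UXg (hh : ∀ k, Matrix (ι k) (ι k) ℝ) (I : Finset X) (N : ℕ) (s : X → ℕ → Finset Pt)
    (cA cB cC : ℝ) (FA FB FC : X → NMg ι)
    (a b e : ℕ) : ℝ :=
  ∑ i ∈ I, UNg hh N (s i) cA cB cC (FA i) (FB i) (FC i) a b e

theorem RXg_nonneg (hs : ∀ k, (hh k)ᵀ = hh k) {x y : ℝ} :
    0 ≤ RXg hh I N s x y F H := sum_nonneg fun _ _ => RPg_nonneg hs

theorem RXg_mono (hs : ∀ k, (hh k)ᵀ = hh k) {x x' y y' : ℝ} (hx : 0 < x) (hy : 0 < y) (hxx : x ≤ x') (hyy : y ≤ y') :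
    RXg hh I N s x y F H ≤ RXg hh I N s x' y' F H :=
  sum_le_sum fun _ _ => RPg_mono hs hx hy hxx hyy

section steps

variable (hs : ∀ k, (hh k)ᵀ = hh k) (hq : ∀ k, hh k * hh k = 1) (hτ : 0 < τ) (hC : 0 < cC)
  (capA : ∀ i ∈ I, ∀ k ∈ Icc 1 N, ∀ m ∈ s i k,
    (1 - gramC ((τ ^ 2)⁻¹ * (4 ^ k)⁻¹) (FA i k m)).PosSemidef)
  (capB : ∀ i ∈ I, ∀ k ∈ Icc 1 N, ∀ m ∈ s i k,
    (1 - gramC ((τ ^ 2)⁻¹ * (4 ^ k)⁻¹) (FB i k m)).PosSemidef)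
  (capC : ∀ i ∈ I, ∀ k ∈ Icc 1 N, ∀ m ∈ s i k,
    (1 - gramC ((cC ^ 2)⁻¹ * (4 ^ k)⁻¹) (FC i k m)).PosSemidef)

include hs hq hτ hC capA capB capC

theorem UXg_A (a b e : ℕ) :
    UXg hh I N s τ τ cC FA FB FC a b e ≤ UXg hh I N s τ τ cC FA FB FC (a + 1) b e +
      6 * ((τ / 2 ^ (a - 1))⁻¹ * √(RXg hh I N s (cC / 2 ^ (e - 1)) (τ / 2 ^ (a - 1)) FC FA *
        RXg hh I N s (τ / 2 ^ (a - 1)) (τ / 2 ^ (b - 1)) FA FB)) := by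
  have h1 : ∀ i ∈ I, UNg hh N (s i) τ τ cC (FA i) (FB i) (FC i) a b e ≤
      UNg hh N (s i) τ τ cC (FA i) (FB i) (FC i) (a + 1) b e + 6 * ((τ / 2 ^ (a - 1))⁻¹ *
        √(RPg hh N (s i) (cC / 2 ^ (e - 1)) (τ / 2 ^ (a - 1)) (FC i) (FA i) *
          RPg hh N (s i) (τ / 2 ^ (a - 1)) (τ / 2 ^ (b - 1)) (FA i) (FB i))) := fun i hi =>
    UNg_A hs hq hτ hτ hC (capA i hi) (capB i hi) (capC i hi) a b e le_rfl le_rfl
  refine (sum_le_sum h1).trans ?_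
  rw [sum_add_distrib, ← mul_sum, ← mul_sum]
  refine add_le_add_right (mul_le_mul_of_nonneg_left (mul_le_mul_of_nonneg_left
    (sum_sqrt_le (fun i => RPg_nonneg hs) fun i => RPg_nonneg hs) (by positivity)) (by norm_num)) _

theorem UXg_B (a b e : ℕ) :
    UXg hh I N s τ τ cC FA FB FC a b e ≤ UXg hh I N s τ τ cC FA FB FC a (b + 1) e +
      6 * ((τ / 2 ^ (b - 1))⁻¹ * √(RXg hh I N s (τ / 2 ^ (a - 1)) (τ / 2 ^ (b - 1)) FA FB *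
        RXg hh I N s (τ / 2 ^ (b - 1)) (cC / 2 ^ (e - 1)) FB FC)) := by
  have h1 : ∀ i ∈ I, UNg hh N (s i) τ τ cC (FA i) (FB i) (FC i) a b e ≤
      UNg hh N (s i) τ τ cC (FA i) (FB i) (FC i) a (b + 1) e + 6 * ((τ / 2 ^ (b - 1))⁻¹ *
        √(RPg hh N (s i) (τ / 2 ^ (a - 1)) (τ / 2 ^ (b - 1)) (FA i) (FB i) *
          RPg hh N (s i) (τ / 2 ^ (b - 1)) (cC / 2 ^ (e - 1)) (FB i) (FC i))) := fun i hi =>
    UNg_B hs hq hτ hτ hC (capA i hi) (capB i hi) (capC i hi) a b e le_rfl le_rfl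
  refine (sum_le_sum h1).trans ?_
  rw [sum_add_distrib, ← mul_sum, ← mul_sum]
  refine add_le_add_right (mul_le_mul_of_nonneg_left (mul_le_mul_of_nonneg_left
    (sum_sqrt_le (fun i => RPg_nonneg hs) fun i => RPg_nonneg hs) (by positivity)) (by norm_num)) _

theorem UXg_C (a b e : ℕ) :
    UXg hh I N s τ τ cC FA FB FC a b e ≤ UXg hh I N s τ τ cC FA FB FC a b (e + 1) +
      6 * ((cC / 2 ^ (e - 1))⁻¹ * √(RXg hh I N s (τ / 2 ^ (b - 1)) (cC / 2 ^ (e - 1)) FB FC *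
        RXg hh I N s (cC / 2 ^ (e - 1)) (τ / 2 ^ (a - 1)) FC FA)) := by
  have h1 : ∀ i ∈ I, UNg hh N (s i) τ τ cC (FA i) (FB i) (FC i) a b e ≤
      UNg hh N (s i) τ τ cC (FA i) (FB i) (FC i) a b (e + 1) + 6 * ((cC / 2 ^ (e - 1))⁻¹ *
        √(RPg hh N (s i) (τ / 2 ^ (b - 1)) (cC / 2 ^ (e - 1)) (FB i) (FC i) *
          RPg hh N (s i) (cC / 2 ^ (e - 1)) (τ / 2 ^ (a - 1)) (FC i) (FA i))) := fun i hi =>
    UNg_C hs hq hτ hτ hC (capA i hi) (capB i hi) (capC i hi) a b e le_rfl le_rfl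
  refine (sum_le_sum h1).trans ?_
  rw [sum_add_distrib, ← mul_sum, ← mul_sum]
  refine add_le_add_right (mul_le_mul_of_nonneg_left (mul_le_mul_of_nonneg_left
    (sum_sqrt_le (fun i => RPg_nonneg hs) fun i => RPg_nonneg hs) (by positivity)) (by norm_num)) _

theorem UXg_tail : ∃ K : ℝ, ∀ a b e : ℕ,
    UXg hh I N s τ τ cC FA FB FC a b e ≤ K * (2 ^ (a + b + e))⁻¹ := by
  have h1 : ∀ i : X, ∃ K : ℝ, i ∈ I → ∀ a b e : ℕ,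
      UNg hh N (s i) τ τ cC (FA i) (FB i) (FC i) a b e ≤ K * (2 ^ (a + b + e))⁻¹ := by
    intro i
    by_cases hi : i ∈ I
    · obtain ⟨K, _, hK⟩ := UNg_tail (FA := FA i) (FB := FB i) (FC := FC i) hs hq hτ hτ hC (capA i hi)
        (capB i hi) (capC i hi)
      exact ⟨K, fun _ => hK⟩
    · exact ⟨0, fun h => absurd h hi⟩
  choose K hK using h1
  refine ⟨∑ i ∈ I, K i, fun a b e => ?_⟩
  unfold UXg
  rw [sum_mul]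
  exact sum_le_sum fun i hi => hK i hi a b e


end steps

end family

end

end Vale.Agent.P141.H750.NG
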