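import Vale.Agent.P141.H750.PadG
import Vale.Agent.P141.H408.SkelTI

/-!
# P141, line (A): the raw stage in the letters of the skeleton of the increasing part

`stageR`: the stage sum with raw partners (hypotheses of `H581.stageY`) for node dependent functions
`A` (scalar), `B`, `C` (with labels), a finite family of `x0`, in the pairs `rAB`, `rBC`, `rCA` of
`H408.SkelTI`. `TTf_leR`: the increasing part with the slot `Th`.
-/

namespace Vale.Agent.P141.H750.SR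

open Finset Matrix
open Vale.Agent.P075 (Ix val gramC gramR gramC_psd gramR_psd T3 psd_conj psd_sq psd_isSymm phi)
open Vale.Agent.P141.PL (Pt iv hs ix mem_iv ix_ix)
open Vale.Agent.P141.PL.H588 (Xg hd smp sum_iv)
open Vale.Agent.P141.PL.H804 (bl hd_symm hd_sq M2)
open Vale.Agent.P141.H103 (QW)
open Vale.Agent.P141.H585.PairCh (phs)
open Vale.Agent.P141.H677 (nf3)
open Vale.Agent.P141.H408 (QL hdL rAB rBC rCA)
open Vale.Agent.P141.H750.NG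

noncomputable section

set_option linter.unusedSectionVars false

section node

variable {κ : Type} [Fintype κ] [DecidableEq κ]

/-- the matrix of `B (x, y)`: rows `y`, columns `(x, label)` -/
def rB (B : ℤ → ℤ → κ → ℝ) (k : ℕ) (m : Pt) : Matrix (Ix k) (Ix k × κ) ℝ := fun i j =>
  B (2 ^ k * m.2.2 + val k j.1) (2 ^ k * m.2.1 + val k i) j.2

/-- the matrix of `C (z, x)`: rows `(x, label)`, columns `z` -/
def rC (C : ℤ → ℤ → κ → ℝ) (k : ℕ) (m : Pt) : Matrix (Ix k × κ) (Ix k) ℝ := fun j i =>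
  C (2 ^ k * m.1 + val k i) (2 ^ k * m.2.2 + val k j.1) j.2

theorem hdL_eq (k : ℕ) : hdL κ k = hlab κ (hd k) := rfl

/-- the slice of a matrix at a label -/
def slB {n : Type*} (B : Matrix n (n × κ) ℝ) (a : κ) : Matrix n n ℝ := fun i j => B i (j, a)

/-- the slice of a matrix at a label -/
def slC {n : Type*} (C : Matrix (n × κ) n ℝ) (a : κ) : Matrix n n ℝ := fun j i => C (j, a) i

/-- the product over the hub with labels -/
theorem mul_lab {n : Type*} [Fintype n] (h₀ : Matrix n n ℝ) (B : Matrix n (n × κ) ℝ)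
    (C : Matrix (n × κ) n ℝ) :
    B * hlab κ h₀ * C = ∑ a : κ, slB B a * h₀ * slC C a := by
  ext i i'
  rw [Matrix.sum_apply]
  simp only [Matrix.mul_apply, Fintype.sum_prod_type, hlab, slB, slC]
  rw [Finset.sum_comm]
  refine sum_congr rfl fun a _ => sum_congr rfl fun j _ => ?_
  congr 1
  refine sum_congr rfl fun j' _ => ?_
  rw [Finset.sum_eq_single a]
  · simp
  · intro b _ hb
    rw [if_neg hb, mul_zero]
  · simp

theorem tr_lab {n : Type*} [Fintype n] (h₀ A : Matrix n n ℝ) (B : Matrix n (n × κ) ℝ)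
    (C : Matrix (n × κ) n ℝ) :
    (h₀ * A * h₀ * B * hlab κ h₀ * C).trace = ∑ a : κ,
      T3 h₀ A (slB B a) (slC C a) := by
  have e : h₀ * A * h₀ * B * hlab κ h₀ * C = h₀ * A * h₀ * (B * hlab κ h₀ * C) := by
    simp only [Matrix.mul_assoc]
  rw [e, mul_lab, Matrix.mul_sum, trace_sum]
  refine sum_congr rfl fun a _ => ?_
  unfold T3
  congr 1
  simp only [Matrix.mul_assoc]

/-- **The node form as a trace of rectangular matrices.** -/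
theorem nf3_rect {k : ℕ} (hk : 1 ≤ k) (A : ℤ → ℤ → ℝ) (B C : ℤ → ℤ → κ → ℝ) (m : Pt) :
    nf3 A B C k m = (2 ^ k : ℝ)⁻¹ * (hd k * bl k A m.1 m.2.1 * hd k * rB B k m * hdL κ k *
      rC C k m).trace := by
  rw [hdL_eq, tr_lab]
  have e : ∀ a : κ, T3 (hd k) (bl k A m.1 m.2.1)
      (slB (rB B k m) a) (slC (rC C k m) a) =
      PL.tri k m A (fun y x => B x y a) (fun z x => C z x a) := by
    intro a
    rw [PL.H804.tri_eq' hk]
    rfl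
  rw [sum_congr rfl fun a _ => e a]
  unfold H677.nf3
  congr 1
  symm
  unfold PL.tri
  rw [sum_comm]
  refine sum_congr rfl fun z _ => ?_
  rw [sum_comm (s := iv k m.2.2)]
  rw [sum_comm]
  refine sum_congr rfl fun y _ => ?_
  rw [sum_comm]
  refine sum_congr rfl fun x _ => ?_
  unfold dotProduct
  rw [mul_sum, mul_sum]
  refine sum_congr rfl fun a _ => ?_
  ring

/-! ### The Gram matrices -/

theorem four_pow (k : ℕ) : ((2 : ℝ) ^ k * 2 ^ k)⁻¹ = (4 ^ k)⁻¹ := by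
  rw [← mul_pow]; norm_num

theorem gram_rB (B : ℤ → ℤ → κ → ℝ) (k : ℕ) (m : Pt) :
    ((4 : ℝ) ^ k)⁻¹ • (rB B k m * (rB B k m)ᵀ) = QW k k B (fun _ => 1) m.2.2 m.2.1 := by
  ext i j
  rw [Matrix.smul_apply, smul_eq_mul, QW, four_pow, Matrix.mul_apply, Fintype.sum_prod_type,
    sum_iv]
  congr 1
  refine sum_congr rfl fun x _ => ?_
  rw [one_mulVec]
  rfl

theorem gram_rB_lab (B : ℤ → ℤ → κ → ℝ) (k : ℕ) (m : Pt) :
    ((4 : ℝ) ^ k)⁻¹ • ((rB B k m)ᵀ * rB B k m) = QL k (fun y x => B x y) m.2.1 m.2.2 := by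
  ext i j
  rw [Matrix.smul_apply, smul_eq_mul, QL, four_pow, Matrix.mul_apply, sum_iv]
  rfl

theorem gram_rC_lab (C : ℤ → ℤ → κ → ℝ) (k : ℕ) (m : Pt) :
    ((4 : ℝ) ^ k)⁻¹ • (rC C k m * (rC C k m)ᵀ) = QL k C m.1 m.2.2 := by
  ext i j
  rw [Matrix.smul_apply, smul_eq_mul, QL, four_pow, Matrix.mul_apply, sum_iv]
  rfl

theorem gram_rC (C : ℤ → ℤ → κ → ℝ) (k : ℕ) (m : Pt) :
    ((4 : ℝ) ^ k)⁻¹ • ((rC C k m)ᵀ * rC C k m) =
      QW k k (fun x z => C z x) (fun _ => 1) m.2.2 m.1 := by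
  ext i j
  rw [Matrix.smul_apply, smul_eq_mul, QW, four_pow, Matrix.mul_apply, Fintype.sum_prod_type,
    sum_iv]
  congr 1
  refine sum_congr rfl fun x _ => ?_
  rw [one_mulVec]
  rfl

theorem gram_A (A : ℤ → ℤ → ℝ) (w : ℝ) (k : ℕ) (n m : ℤ) :
    gramC (w * (4 ^ k)⁻¹) (bl k A n m) = w • Xg k k A n m := by
  rw [gramC, Xg, four_pow, smul_smul]
  rfl

theorem gramR_A (A : ℤ → ℤ → ℝ) (w : ℝ) (k : ℕ) (n m : ℤ) :
    gramR (w * (4 ^ k)⁻¹) (bl k A n m) = w • Xg k k (fun y z => A z y) m n := by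
  rw [gramR, Xg, four_pow, smul_smul]
  rfl

theorem phs_pair {n : Type*} [Fintype n] [DecidableEq n] (h X Y : Matrix n n ℝ) (x y : ℝ)
    (k : ℕ) :
    x ^ 2 * y ^ 2 * (4 ^ k * (phi ((x ^ 2)⁻¹ • X) * (h * phi ((y ^ 2)⁻¹ • Y) * h)).trace) =
      4 ^ k * (phs (x ^ 2) X * (h * phs (y ^ 2) Y * h)).trace := by
  rw [phs, phs]
  simp only [Matrix.mul_smul, Matrix.smul_mul, trace_smul, smul_eq_mul]
  ring

theorem rAB_eq (A : ℤ → ℤ → ℝ) (B : ℤ → ℤ → κ → ℝ) (k : ℕ) (m : Pt) (x y : ℝ) :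
    x ^ 2 * y ^ 2 * (4 ^ k * (phi (gramC ((x ^ 2)⁻¹ * (4 ^ k)⁻¹) (bl k A m.1 m.2.1)) *
      (hd k * phi (((y ^ 2)⁻¹ * (4 ^ k)⁻¹) • (rB B k m * (rB B k m)ᵀ)) * hd k)).trace) =
      rAB A B k m x y := by
  rw [gram_A, mul_smul, gram_rB, phs_pair]
  rfl

theorem rBC_eq (B C : ℤ → ℤ → κ → ℝ) (k : ℕ) (m : Pt) (x y : ℝ) :
    x ^ 2 * y ^ 2 * (4 ^ k * (phi (((x ^ 2)⁻¹ * (4 ^ k)⁻¹) • ((rB B k m)ᵀ * rB B k m)) *
      (hdL κ k * phi (((y ^ 2)⁻¹ * (4 ^ k)⁻¹) • (rC C k m * (rC C k m)ᵀ)) * hdL κ k)).trace) =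
      rBC B C k m x y := by
  rw [mul_smul, mul_smul, gram_rB_lab, gram_rC_lab, phs_pair]
  rfl

theorem rCA_eq (C : ℤ → ℤ → κ → ℝ) (A : ℤ → ℤ → ℝ) (k : ℕ) (m : Pt) (x y : ℝ) :
    x ^ 2 * y ^ 2 * (4 ^ k * (phi (((x ^ 2)⁻¹ * (4 ^ k)⁻¹) • ((rC C k m)ᵀ * rC C k m)) *
      (hd k * phi (gramR ((y ^ 2)⁻¹ * (4 ^ k)⁻¹) (bl k A m.1 m.2.1)) * hd k)).trace) =
      rCA C A k m x y := by
  rw [mul_smul, gram_rC, gramR_A, phs_pair]
  rfl

/-! ### Caps -/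

/-- `1 - B Bᵀ ≥ 0` gives `1 - Bᵀ B ≥ 0` -/
theorem cap_swap_rect {n p : Type*} [Fintype n] [DecidableEq n] [Fintype p] [DecidableEq p]
    {B : Matrix n p ℝ} (h : (1 - B * Bᵀ).PosSemidef) : (1 - Bᵀ * B).PosSemidef := by
  have h1 := psd_conj h Bᵀ
  rw [transpose_transpose] at h1
  have hs : (1 - Bᵀ * B)ᵀ = 1 - Bᵀ * B := by
    rw [transpose_sub, transpose_one, transpose_mul, transpose_transpose]
  have h2 := (psd_sq hs).add h1
  have e : (1 - Bᵀ * B) * (1 - Bᵀ * B) + Bᵀ * (1 - B * Bᵀ) * B = 1 - Bᵀ * B := by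
    simp only [Matrix.mul_sub, Matrix.sub_mul, Matrix.one_mul, Matrix.mul_one, Matrix.mul_assoc]
    abel
  rwa [e] at h2

theorem cap_of {n : Type*} [Fintype n] [DecidableEq n] {c τ : ℝ} (hc : 0 < c) (hcτ : c ≤ τ)
    {X : Matrix n n ℝ} (h : ((c ^ 2) • (1 : Matrix n n ℝ) - X).PosSemidef) :
    (1 - (τ ^ 2)⁻¹ • X).PosSemidef := by
  have hτ : 0 < τ := hc.trans_le hcτ
  have h1 := h.smul (show (0 : ℝ) ≤ (τ ^ 2)⁻¹ by positivity)
  have h2 : ((1 - (τ ^ 2)⁻¹ * c ^ 2) • (1 : Matrix n n ℝ)).PosSemidef := by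
    refine PosSemidef.smul PosSemidef.one ?_
    rw [sub_nonneg, inv_mul_le_iff₀ (by positivity), mul_one]
    exact pow_le_pow_left₀ hc.le hcτ 2
  have h3 := h2.add h1
  have e : (1 - (τ ^ 2)⁻¹ * c ^ 2) • (1 : Matrix n n ℝ) + (τ ^ 2)⁻¹ • (c ^ 2 • (1 : Matrix n n ℝ) - X)
      = 1 - (τ ^ 2)⁻¹ • X := by module
  rwa [e] at h3

end node

/-- **The stage with raw partners**, labels allowed, functions depending on the node. -/
theorem stageR {κ : Type} [Fintype κ] [DecidableEq κ] {J : Type} {X : Finset J}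
    {K : ℕ} {s : J → ℕ → Finset Pt} {A : J → ℕ → Pt → ℤ → ℤ → ℝ}
    {B C : J → ℕ → Pt → ℤ → ℤ → κ → ℝ} {cA cB cC τ : ℝ} (hcA : 0 < cA) (hAτ : cA ≤ τ)
    (hcB : 0 < cB) (hBτ : cB ≤ τ) (hcC : 0 < cC)
    (capA : ∀ i ∈ X, ∀ k ∈ Icc 1 K, ∀ m ∈ s i k,
      ((cA ^ 2) • 1 - Xg k k (A i k m) m.1 m.2.1).PosSemidef)
    (capB : ∀ i ∈ X, ∀ k ∈ Icc 1 K, ∀ m ∈ s i k,
      ((cB ^ 2) • 1 - QW k k (B i k m) (fun _ => 1) m.2.2 m.2.1).PosSemidef)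
    (capC : ∀ i ∈ X, ∀ k ∈ Icc 1 K, ∀ m ∈ s i k,
      ((cC ^ 2) • 1 - QW k k (fun x z => C i k m z x) (fun _ => 1) m.2.2 m.1).PosSemidef)
    {P₀ P₁ QA QB Z κ' g σ e₂ : ℝ} (hP₀ : 0 ≤ P₀) (hQB0 : 0 ≤ QB) (hZ0 : 0 ≤ Z) (hκ : 0 ≤ κ')
    {D L₀ L₁ : ℕ} (hDσ : τ / 2 ^ (D - 1) ≤ σ) (hσ : σ ≤ e₂) (hL₀ : cC / 2 ^ (L₀ - 1) ≤ g)
    (hL₁ : cC / 2 ^ (L₁ - 1) ≤ e₂)
    (hAB : ∀ h, 0 < h → h ≤ τ → ∑ i ∈ X, ∑ k ∈ Icc 1 K, ∑ m ∈ s i k,
      rAB (A i k m) (B i k m) k m h h ≤ P₀ * h ^ 2)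
    (hAB' : ∀ h, 0 < h → h ≤ e₂ → ∑ i ∈ X, ∑ k ∈ Icc 1 K, ∑ m ∈ s i k,
      rAB (A i k m) (B i k m) k m h h ≤ P₀ * h ^ 2)
    (hT : ∀ x, g ≤ x → x ≤ cC → √((∑ i ∈ X, ∑ k ∈ Icc 1 K, ∑ m ∈ s i k,
        rBC (B i k m) (C i k m) k m τ x) * ∑ i ∈ X, ∑ k ∈ Icc 1 K, ∑ m ∈ s i k,
        rCA (C i k m) (A i k m) k m x τ) ≤ κ' * x)
    (hQA : ∑ i ∈ X, ∑ k ∈ Icc 1 K, ∑ m ∈ s i k, rCA (C i k m) (A i k m) k m g τ ≤ QA)
    (hQB : ∑ i ∈ X, ∑ k ∈ Icc 1 K, ∑ m ∈ s i k, rBC (B i k m) (C i k m) k m τ g ≤ QB)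
    (hCA : ∀ x, e₂ ≤ x → x ≤ g → ∑ i ∈ X, ∑ k ∈ Icc 1 K, ∑ m ∈ s i k,
      rCA (C i k m) (A i k m) k m x σ ≤ P₁ * x ^ 2)
    (hZB : ∀ h, 0 < h → h ≤ e₂ → ∑ i ∈ X, ∑ k ∈ Icc 1 K, ∑ m ∈ s i k,
      rBC (B i k m) (C i k m) k m h h ≤ Z * h ^ 2)
    (hZA : ∀ h, 0 < h → h ≤ e₂ → ∑ i ∈ X, ∑ k ∈ Icc 1 K, ∑ m ∈ s i k,
      rCA (C i k m) (A i k m) k m h h ≤ Z * h ^ 2) :
    ∑ i ∈ X, ∑ k ∈ Icc 1 K, ∑ m ∈ s i k, |nf3 (A i k m) (B i k m) (C i k m) k m| ≤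
      6 * κ' * L₀ + 6 * D * (√(P₀ * QA) + √(P₀ * QB)) +
      6 * L₁ * √(P₁ * QB) + 54 * (P₀ + Z) * e₂ := by
  have hτ : 0 < τ := hcA.trans_le hAτ
  have he₂ : 0 < e₂ := lt_of_lt_of_le (by positivity) (hDσ.trans hσ)
  rcases isEmpty_or_nonempty κ with hκe | ⟨⟨l₀⟩⟩
  · have h0 : ∑ i ∈ X, ∑ k ∈ Icc 1 K, ∑ m ∈ s i k,
        |nf3 (A i k m) (B i k m) (C i k m) k m| = 0 := by
      refine sum_eq_zero fun i _ => sum_eq_zero fun k _ => sum_eq_zero fun m _ => ?_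
      unfold H677.nf3
      simp [dotProduct]
    rw [h0]
    positivity
  have eAB : ∀ x y : ℝ, RAB (fun k => hd k) X K s x y (fun i k m => bl k (A i k m) m.1 m.2.1)
      (fun i k m => rB (B i k m) k m) = ∑ i ∈ X, ∑ k ∈ Icc 1 K, ∑ m ∈ s i k,
        rAB (A i k m) (B i k m) k m x y := by
    intro x y
    unfold RAB
    refine sum_congr rfl fun i _ => sum_congr rfl fun k _ => sum_congr rfl fun m _ => ?_
    exact rAB_eq (A i k m) (B i k m) k m x y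
  have eBC : ∀ x y : ℝ, RBC (fun k => hdL κ k) X K s x y (fun i k m => rB (B i k m) k m)
      (fun i k m => rC (C i k m) k m) = ∑ i ∈ X, ∑ k ∈ Icc 1 K, ∑ m ∈ s i k,
        rBC (B i k m) (C i k m) k m x y := by
    intro x y
    unfold RBC
    refine sum_congr rfl fun i _ => sum_congr rfl fun k _ => sum_congr rfl fun m _ => ?_
    exact rBC_eq (B i k m) (C i k m) k m x y
  have eCA : ∀ x y : ℝ, RCA (fun k => hd k) X K s x y (fun i k m => rC (C i k m) k m)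
      (fun i k m => bl k (A i k m) m.1 m.2.1) = ∑ i ∈ X, ∑ k ∈ Icc 1 K, ∑ m ∈ s i k,
        rCA (C i k m) (A i k m) k m x y := by
    intro x y
    unfold RCA
    refine sum_congr rfl fun i _ => sum_congr rfl fun k _ => sum_congr rfl fun m _ => ?_
    exact rCA_eq (C i k m) (A i k m) k m x y
  have main := stageRect (h := fun k => hdL κ k) (h₀ := fun k => hd k)
    (E := fun k => Eiso (n := Ix k) l₀) (I := X) (N := K) (s := s) (τ := τ) (cC := cC)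
    (A := fun i k m => bl k (A i k m) m.1 m.2.1) (B := fun i k m => rB (B i k m) k m)
    (C := fun i k m => rC (C i k m) k m) (P₀ := P₀) (P₁ := P₁) (QA := QA) (QB := QB) (Z := Z)
    (κ' := κ') (g := g) (σ := σ) (e₂ := e₂) (D := D) (L₀ := L₀) (L₁ := L₁)
    (fun k => hlab_symm (hd_symm k)) (fun k => hlab_sq (hd_sq k)) (fun k => Eiso_iso l₀)
    (fun k => hlab_inter l₀) hτ hcC
    (fun i hi k hk m hm => by
      rw [gram_A]
      exact cap_of hcA hAτ (capA i hi k hk m hm))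
    (fun i hi k hk m hm => by
      have h1 := cap_of hcB hBτ (capB i hi k hk m hm)
      rw [← gram_rB, smul_smul] at h1
      set w : ℝ := (τ ^ 2)⁻¹ * (4 ^ k)⁻¹ with hw
      have w0 : 0 ≤ w := by positivity
      have e1 : ((√w) • rB (B i k m) k m) * ((√w) • rB (B i k m) k m)ᵀ =
          w • (rB (B i k m) k m * (rB (B i k m) k m)ᵀ) := by
        rw [transpose_smul, Matrix.smul_mul, Matrix.mul_smul, smul_smul, Real.mul_self_sqrt w0]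
      have e2 : ((√w) • rB (B i k m) k m)ᵀ * ((√w) • rB (B i k m) k m) =
          w • ((rB (B i k m) k m)ᵀ * rB (B i k m) k m) := by
        rw [transpose_smul, Matrix.smul_mul, Matrix.mul_smul, smul_smul, Real.mul_self_sqrt w0]
      rw [← e1] at h1
      have h2 := cap_swap_rect h1
      rwa [e2] at h2)
    (fun i hi k hk m hm => by
      have h1 := cap_of hcC le_rfl (capC i hi k hk m hm)
      rwa [← gram_rC, smul_smul] at h1)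
    hP₀ hQB0 hZ0 hκ hDσ hσ hL₀ hL₁
    (fun x hx hx' => by rw [eAB]; exact hAB x hx hx')
    (fun x hx hx' => by rw [eAB]; exact hAB' x hx hx')
    (fun x hx hx' => by rw [eBC, eCA]; exact hT x hx hx')
    (by rw [eCA]; exact hQA) (by rw [eBC]; exact hQB)
    (fun x hx hx' => by rw [eCA]; exact hCA x hx hx')
    (fun x hx hx' => by rw [eBC]; exact hZB x hx hx')
    (fun x hx hx' => by rw [eCA]; exact hZA x hx hx')
  refine le_trans (le_of_eq ?_) main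
  refine sum_congr rfl fun i _ => sum_congr rfl fun k hk => sum_congr rfl fun m _ => ?_
  rw [nf3_rect (mem_Icc.1 hk).1]

/-! ### The increasing part with the slot `Th` -/

section fam

open Vale.Agent.P141.H677 (KT GT sN rt tr_T)
open Vale.Agent.P141.H677.Sk (FamA FamV FunF)
open Vale.Agent.P141.H408 (TTf PABf PBCf PCAf SN SN_sigma Caps Bt Ct ndT_nf3)

variable {ι : Type} [Fintype ι] [DecidableEq ι]

/-- **The part with the slot `Th` by the stage with raw partners.** -/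
theorem TTf_leR {Al : ℕ → Pt → Prop} {o : ℤ} {K : ℕ} {M : Pt} {sg : ℕ → Pt → ℝ} {be l : ℝ}
    (hbe : 0 < be) (hl : 0 < l) {u : ℤ → ℤ → ι → ℝ} {A : FamA} {b C : FamV ι}
    {cA cB cC τ : ℝ} (hcA : 0 < cA) (hAτ : cA ≤ τ) (hcB : 0 < cB) (hBτ : cB ≤ τ) (hcC : 0 < cC)
    (hcap : Caps Al o K M be l u A b C cA cB cC)
    {P₀ P₁ QA QB Z κ' g σ e₂ : ℝ} (hP₀ : 0 ≤ P₀) (hQB0 : 0 ≤ QB) (hZ0 : 0 ≤ Z) (hκ : 0 ≤ κ')
    {D L₀ L₁ : ℕ} (hDσ : τ / 2 ^ (D - 1) ≤ σ) (hσ : σ ≤ e₂) (hL₀ : cC / 2 ^ (L₀ - 1) ≤ g)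
    (hL₁ : cC / 2 ^ (L₁ - 1) ≤ e₂)
    (hAB : ∀ h, 0 < h → h ≤ τ → PABf be h ι Al o K M sg l u A b C ≤ P₀ * h ^ 2)
    (hAB' : ∀ h, 0 < h → h ≤ e₂ → PABf be h ι Al o K M sg l u A b C ≤ P₀ * h ^ 2)
    (hT : ∀ x, g ≤ x → x ≤ cC → √(PBCf be τ x ι Al o K M sg l u A b C *
      PCAf be x τ ι Al o K M sg l u A b C) ≤ κ' * x)
    (hQA : PCAf be g τ ι Al o K M sg l u A b C ≤ QA)
    (hQB : PBCf be τ g ι Al o K M sg l u A b C ≤ QB)
    (hCA : ∀ x, e₂ ≤ x → x ≤ g → PCAf be x σ ι Al o K M sg l u A b C ≤ P₁ * x ^ 2)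
    (hZB : ∀ h, 0 < h → h ≤ e₂ → PBCf be h h ι Al o K M sg l u A b C ≤ Z * h ^ 2)
    (hZA : ∀ h, 0 < h → h ≤ e₂ → PCAf be h h ι Al o K M sg l u A b C ≤ Z * h ^ 2) :
    TTf ι Al o K M sg l u A b C ≤
      6 * κ' * L₀ + 6 * D * (√(P₀ * QA) + √(P₀ * QB)) +
      6 * L₁ * √(P₁ * QB) + 54 * (P₀ + Z) * e₂ := by
  unfold PABf at hAB hAB'
  unfold PBCf at hQB hZB
  unfold PCAf at hQA hCA hZA
  unfold PBCf PCAf at hT
  simp only [SN_sigma] at hAB hAB' hQA hQB hCA hZA hZB hT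
  have e : TTf ι Al o K M sg l u A b C = SN Al o K M fun x0 k m =>
      |nf3 (A x0 k) (Bt be l K M.2.1 (KT l u) (o - 2) x0 (b x0 k) k m.1)
        (Ct be l K M.2.1 (KT l u) (o - 2) x0 (C x0 k) k) k m| := by
    unfold TTf SN
    refine sum_congr rfl fun t _ => sum_congr rfl fun x0 _ => sum_congr rfl fun k hk =>
      sum_congr rfl fun m _ => ?_
    exact congrArg abs (ndT_nf3 hbe (fun x => tr_T hl K u x) (o - 2) x0 (A x0 k) (b x0 k) (C x0 k)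
      (mem_Icc.1 hk).1 m)
  rw [e, SN_sigma]
  exact stageR (κ := ι) (X := (rt M).sigma fun t => iv K t) (K := K)
    (s := fun i k => sN Al o K M i.2 k) (A := fun i k _ => A i.2 k)
    (B := fun i k m => Bt be l K M.2.1 (KT l u) (o - 2) i.2 (b i.2 k) k m.1)
    (C := fun i k _ => Ct be l K M.2.1 (KT l u) (o - 2) i.2 (C i.2 k) k)
    hcA hAτ hcB hBτ hcC (fun i _ k hk m hm => hcap.capA i.2 k hk m hm)
    (fun i _ k hk m hm => hcap.capB i.2 k hk m hm) (fun i _ k hk m hm => hcap.capC i.2 k hk m hm)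
    hP₀ hQB0 hZ0 hκ hDσ hσ hL₀ hL₁ hAB hAB' hT hQA hQB hCA hZB hZA

end fam

end

end Vale.Agent.P141.H750.SR
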