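import Vale.Agent.P141.H609.NodeStep

/-!
# P141, line W: the stage sum, raw partners above, crude constants below

`stageU`: the third function is lowered to the level `g` with the first two at their cap; then the
first two functions are lowered together to the level `σ`; then the third function from `g` to `x₀`
(only the sum of the first and the third function with the first at the level `σ` is needed, in the
form `Z₀ x²`); below `x₀` the three functions are lowered together, the highest one first, with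
crude constants.
-/

namespace Vale.Agent.P141.H750

open Finset Matrix Vale.Agent.P075 Vale.Agent.P141.PL Vale.Agent.P141.PL.H588
open Vale.Agent.P141.PL.H804 Vale.Agent.P141.H958 Vale.Agent.P141.H609

noncomputable section

/-! ### Schedules -/

/-- the third index alone -/
theorem runC {f : ℕ → ℕ → ℕ → ℝ} {κ : ℝ} {a b e₀ E : ℕ}
    (h : ∀ e, e₀ ≤ e → e < e₀ + E → f a b e ≤ f a b (e + 1) + κ) :
    f a b e₀ ≤ f a b (e₀ + E) + κ * E := by
  induction E with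
  | zero => simp
  | succ E ih =>
    have h1 := ih fun e he he' => h e he (by omega)
    have h2 := h (e₀ + E) (by omega) (by omega)
    rw [show e₀ + (E + 1) = e₀ + E + 1 by ring]
    push_cast
    linarith

/-- the first two indices together -/
theorem runAB {f : ℕ → ℕ → ℕ → ℝ} {κA κB : ℝ} {D E : ℕ}
    (hA : ∀ j < D, f j j E ≤ f (j + 1) j E + κA)
    (hB : ∀ j < D, f (j + 1) j E ≤ f (j + 1) (j + 1) E + κB) :
    f 0 0 E ≤ f D D E + D * (κA + κB) := by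
  induction D with
  | zero => simp
  | succ D ih =>
    have h1 := ih (fun j hj => hA j (by omega)) fun j hj => hB j (by omega)
    have h2 := hA D (by omega)
    have h3 := hB D (by omega)
    push_cast
    linarith

/-- the tail: the highest level is lowered -/
theorem tail3 {f : ℕ → ℕ → ℕ → ℝ} {K cA cB cC κ x₀ : ℝ} (hA : 0 < cA) (hB : 0 < cB)
    (hC : 0 < cC) (hκ : 0 ≤ κ) (ht : ∀ a b e, f a b e ≤ K * (2 ^ (a + b + e))⁻¹) {a₀ b₀ e₀ : ℕ}
    (lA : cA / 2 ^ (a₀ - 1) ≤ x₀) (lB : cB / 2 ^ (b₀ - 1) ≤ x₀) (lC : cC / 2 ^ (e₀ - 1) ≤ x₀)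
    (sA : ∀ a b e, a₀ ≤ a → cB / 2 ^ (b - 1) ≤ cA / 2 ^ (a - 1) →
      cC / 2 ^ (e - 1) ≤ cA / 2 ^ (a - 1) → f a b e ≤ f (a + 1) b e + κ * (cA / 2 ^ (a - 1)))
    (sB : ∀ a b e, b₀ ≤ b → cA / 2 ^ (a - 1) ≤ cB / 2 ^ (b - 1) →
      cC / 2 ^ (e - 1) ≤ cB / 2 ^ (b - 1) → f a b e ≤ f a (b + 1) e + κ * (cB / 2 ^ (b - 1)))
    (sC : ∀ a b e, e₀ ≤ e → cA / 2 ^ (a - 1) ≤ cC / 2 ^ (e - 1) →
      cB / 2 ^ (b - 1) ≤ cC / 2 ^ (e - 1) → f a b e ≤ f a b (e + 1) + κ * (cC / 2 ^ (e - 1))) :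
    f a₀ b₀ e₀ ≤ 9 * κ * x₀ := by
  have sums : ∀ (c : ℝ) (_ : 0 < c) (n₀ : ℕ) (_ : c / 2 ^ (n₀ - 1) ≤ x₀) (L : ℕ),
      ∑ j ∈ range L, κ * (c / 2 ^ ((n₀ + j) - 1)) ≤ 3 * κ * x₀ := by
    intro c hc n₀ h L
    rw [← mul_sum]
    have h1 := lev_sum hc.le n₀ L
    have h2 := mul_le_mul_of_nonneg_left (h1.trans (mul_le_mul_of_nonneg_left h
      (by norm_num : (0 : ℝ) ≤ 3))) hκ
    linarith
  have main := ind3 (f := f) (κA := fun a => κ * (cA / 2 ^ (a - 1)))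
    (κB := fun b => κ * (cB / 2 ^ (b - 1))) (κC := fun e => κ * (cC / 2 ^ (e - 1)))
    (fun j => by positivity) (fun j => by positivity) (fun j => by positivity) ht
    (a₀ := a₀) (b₀ := b₀) (e₀ := e₀) (fun a b e ha hb he => ?_)
    (SA := 3 * κ * x₀) (SB := 3 * κ * x₀) (SC := 3 * κ * x₀)
    (sums cA hA a₀ lA) (sums cB hB b₀ lB) (sums cC hC e₀ lC)
  · linarith
  · rcases le_total (cA / 2 ^ (a - 1)) (cB / 2 ^ (b - 1)) with h2 | h2
    · rcases le_total (cC / 2 ^ (e - 1)) (cB / 2 ^ (b - 1)) with h3 | h3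
      · exact Or.inr (Or.inl (sB a b e hb h2 h3))
      · exact Or.inr (Or.inr (sC a b e he (h2.trans h3) h3))
    · rcases le_total (cC / 2 ^ (e - 1)) (cA / 2 ^ (a - 1)) with h3 | h3
      · exact Or.inl (sA a b e ha h2 h3)
      · exact Or.inr (Or.inr (sC a b e he h3 (h2.trans h3)))

/-- first index at which a level is at most `g` -/
theorem first_lev {c g : ℝ} (L : ℕ) (hL : c / 2 ^ (L - 1) ≤ g) :
    ∃ E : ℕ, E ≤ L ∧ c / 2 ^ (E - 1) ≤ g ∧ ∀ e < E, g < c / 2 ^ (e - 1) := by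
  classical
  have hex : ∃ e : ℕ, c / 2 ^ (e - 1) ≤ g := ⟨L, hL⟩
  exact ⟨Nat.find hex, Nat.find_min' hex hL, Nat.find_spec hex,
    fun e he => not_le.1 (Nat.find_min hex he)⟩

/-! ### The stage sum -/

variable {N : ℕ} {s : ℕ → Finset Pt} {τ cC : ℝ} {FA FB FC : NM}

/-- product of two sums at the same level -/
theorem key_sq {h P P' x y : ℝ} (hP : 0 ≤ P) (hP' : 0 ≤ P') (hy0 : 0 ≤ y)
    (hh : 0 < h) (hx : x ≤ P * h ^ 2) (hy : y ≤ P' * h ^ 2) :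
    h⁻¹ * √(x * y) ≤ √(P * P') * h := by
  have e : √(P * P') * h ^ 2 = √((P * P') * (h ^ 2) ^ 2) := by
    rw [Real.sqrt_mul (mul_nonneg hP hP') ((h ^ 2) ^ 2), Real.sqrt_sq (by positivity)]
  have h1 : √(x * y) ≤ √(P * P') * h ^ 2 := by
    rw [e]
    refine Real.sqrt_le_sqrt ((mul_le_mul hx hy hy0 (by positivity)).trans (le_of_eq ?_))
    ring
  have h2 := mul_le_mul_of_nonneg_left h1 (inv_nonneg.mpr hh.le)
  refine h2.trans (le_of_eq ?_)
  field_simp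

/-- one of the two sums has the size of the square of the level -/
theorem key_lin {h P Q x y : ℝ} (hP : 0 ≤ P) (hy0 : 0 ≤ y) (hh : 0 < h)
    (hx : x ≤ P * h ^ 2) (hy : y ≤ Q) : h⁻¹ * √(x * y) ≤ √(P * Q) := by
  have h1 : √(x * y) ≤ √((P * Q) * h ^ 2) :=
    Real.sqrt_le_sqrt ((mul_le_mul hx hy hy0 (by positivity)).trans (le_of_eq (by ring)))
  have hQ : 0 ≤ Q := hy0.trans hy
  have h2 : √((P * Q) * h ^ 2) = √(P * Q) * h := by
    rw [Real.sqrt_mul (mul_nonneg hP hQ), Real.sqrt_sq hh.le]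
  have h3 := mul_le_mul_of_nonneg_left (h1.trans_eq h2) (inv_nonneg.mpr hh.le)
  refine h3.trans (le_of_eq ?_)
  field_simp

/-- **The stage sum, raw partners above, crude constants below.** -/
theorem stageU (hτ : 0 < τ) (hC : 0 < cC)
    (capA : ∀ k ∈ Icc 1 N, ∀ m ∈ s k, (1 - gramC ((τ ^ 2)⁻¹ * (4 ^ k)⁻¹) (FA k m)).PosSemidef)
    (capB : ∀ k ∈ Icc 1 N, ∀ m ∈ s k, (1 - gramC ((τ ^ 2)⁻¹ * (4 ^ k)⁻¹) (FB k m)).PosSemidef)
    (capC : ∀ k ∈ Icc 1 N, ∀ m ∈ s k, (1 - gramC ((cC ^ 2)⁻¹ * (4 ^ k)⁻¹) (FC k m)).PosSemidef)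
    {P₀ QA QB Z₀ Z₁ Z₂ κ' g σ x₀ : ℝ} (hP₀ : 0 ≤ P₀) (hZ₀ : 0 ≤ Z₀) (hZ₁ : 0 ≤ Z₁)
    (hZ₂ : 0 ≤ Z₂) (hκ : 0 ≤ κ') (hσx : σ ≤ x₀) {D L₀ L₁ : ℕ}
    (hDσ : τ / 2 ^ (D - 1) ≤ σ) (hL₀ : cC / 2 ^ (L₀ - 1) ≤ g) (hL₁ : cC / 2 ^ (L₁ - 1) ≤ x₀)
    (hAB : ∀ h, 0 < h → h ≤ τ → RP N s h h FA FB ≤ P₀ * h ^ 2)
    (hT : ∀ x, g ≤ x → x ≤ cC → √(RP N s τ x FB FC * RP N s x τ FC FA) ≤ κ' * x)
    (hQA : RP N s g τ FC FA ≤ QA) (hQB : RP N s τ g FB FC ≤ QB)
    (hcr : ∀ x, x₀ ≤ x → x ≤ g → RP N s x σ FC FA ≤ Z₀ * x ^ 2)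
    (hBC : ∀ h, 0 < h → h ≤ x₀ → RP N s h h FB FC ≤ Z₁ * h ^ 2)
    (hCA : ∀ h, 0 < h → h ≤ x₀ → RP N s h h FC FA ≤ Z₂ * h ^ 2) :
    UN N s τ τ cC FA FB FC 0 0 0 ≤ 6 * κ' * L₀ + 6 * D * (√(P₀ * QA) + √(P₀ * QB)) +
      6 * L₁ * √(Z₀ * QB) + 54 * (√(P₀ * Z₁) + √(P₀ * Z₂) + √(Z₁ * Z₂)) * x₀ := by
  obtain ⟨K, _, hK⟩ := UN_tail (FA := FA) (FB := FB) (FC := FC) hτ hτ hC capA capB capC
  obtain ⟨E, hE, hEg, hE'⟩ := first_lev L₀ hL₀
  obtain ⟨E₁, hE₁, hE₁x, hE₁'⟩ := first_lev L₁ hL₁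
  have pσ : 0 < σ := lt_of_lt_of_le (by positivity) hDσ
  have px₀ : 0 < x₀ := pσ.trans_le hσx
  have pg : 0 < g := lt_of_lt_of_le (by positivity) hEg
  have la : ∀ a : ℕ, 0 < τ / 2 ^ (a - 1) := fun a => by positivity
  have lc : ∀ a : ℕ, 0 < cC / 2 ^ (a - 1) := fun a => by positivity
  have lτ : ∀ a : ℕ, τ / 2 ^ (a - 1) ≤ τ := fun a => div_le_self hτ.le (one_le_pow₀ (by norm_num))
  have lcC : ∀ a : ℕ, cC / 2 ^ (a - 1) ≤ cC := fun a => div_le_self hC.le (one_le_pow₀ (by norm_num))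
  have anti : ∀ {c : ℝ} (_ : 0 < c) {i j : ℕ} (_ : i ≤ j), c / 2 ^ (j - 1) ≤ c / 2 ^ (i - 1) :=
    fun hc i j h => div_le_div_of_nonneg_left hc.le (by positivity)
      (pow_le_pow_right₀ (by norm_num) (by omega))
  have hQB0 : 0 ≤ QB := RP_nonneg.trans hQB
  have hQA0 : 0 ≤ QA := RP_nonneg.trans hQA
  -- part 1: the third function to the level `g`
  have q1 := runC (f := UN N s τ τ cC FA FB FC) (a := 0) (b := 0) (e₀ := 0) (κ := 6 * κ') (E := E)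
    (fun e _ he => by
      have he' : e < E := by omega
      have h := UN_C hτ hτ hC capA capB capC 0 0 e (x := RP N s τ (cC / 2 ^ (e - 1)) FB FC)
        (y := RP N s (cC / 2 ^ (e - 1)) τ FC FA) (by simp) (by simp)
      refine h.trans (add_le_add_right (mul_le_mul_of_nonneg_left ?_ (by norm_num)) _)
      have h2 := mul_le_mul_of_nonneg_left (hT _ (hE' e he').le (lcC e))
        (inv_nonneg.mpr (lc e).le)
      refine h2.trans (le_of_eq ?_)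
      have := lc e
      field_simp)
  rw [zero_add] at q1
  -- part 2: the first two functions to the level `σ`
  have q2 := runAB (f := UN N s τ τ cC FA FB FC) (κA := 6 * √(P₀ * QA)) (κB := 6 * √(P₀ * QB))
    (D := D) (E := E)
    (fun j _ => by
      refine (UN_A hτ hτ hC capA capB capC j j E (x := QA) (y := P₀ * (τ / 2 ^ (j - 1)) ^ 2)
        ((RP_mono (lc E) (la j) hEg (lτ j)).trans hQA) (hAB _ (la j) (lτ j))).trans ?_
      refine add_le_add_right (mul_le_mul_of_nonneg_left ?_ (by norm_num)) _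
      rw [mul_comm QA]
      exact key_lin hP₀ hQA0 (la j) le_rfl le_rfl)
    (fun j _ => by
      refine (UN_B hτ hτ hC capA capB capC (j + 1) j E (x := P₀ * (τ / 2 ^ (j - 1)) ^ 2) (y := QB)
        ((RP_mono (la (j + 1)) (la j) (anti hτ (Nat.le_succ j)) le_rfl).trans
          (hAB _ (la j) (lτ j)))
        ((RP_mono (la j) (lc E) (lτ j) hEg).trans hQB)).trans ?_
      refine add_le_add_right (mul_le_mul_of_nonneg_left ?_ (by norm_num)) _
      exact key_lin hP₀ hQB0 (la j) le_rfl le_rfl)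
  -- part 3: the third function to the level `x₀`
  have q3 : UN N s τ τ cC FA FB FC D D E ≤ UN N s τ τ cC FA FB FC D D (E + (E₁ - E)) +
      6 * √(Z₀ * QB) * ((E₁ - E : ℕ) : ℝ) := by
    refine runC (f := UN N s τ τ cC FA FB FC) (a := D) (b := D) (e₀ := E)
      (κ := 6 * √(Z₀ * QB)) (E := E₁ - E) (fun e he he' => ?_)
    have h1 : e < E₁ := by omega
    have h2 : cC / 2 ^ (e - 1) ≤ g := (anti hC he).trans hEg
    refine (UN_C hτ hτ hC capA capB capC D D e (x := QB) (y := Z₀ * (cC / 2 ^ (e - 1)) ^ 2)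
      ((RP_mono (la D) (lc e) (lτ D) h2).trans hQB)
      ((RP_mono (lc e) (la D) le_rfl hDσ).trans (hcr _ (hE₁' e h1).le h2))).trans ?_
    refine add_le_add_right (mul_le_mul_of_nonneg_left ?_ (by norm_num)) _
    rw [mul_comm QB]
    exact key_lin hZ₀ hQB0 (lc e) le_rfl le_rfl
  -- part 4: the tail
  set κ : ℝ := 6 * (√(P₀ * Z₁) + √(P₀ * Z₂) + √(Z₁ * Z₂)) with hκdef
  have n1 : 0 ≤ √(P₀ * Z₁) := Real.sqrt_nonneg _
  have n2 : 0 ≤ √(P₀ * Z₂) := Real.sqrt_nonneg _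
  have n3 : 0 ≤ √(Z₁ * Z₂) := Real.sqrt_nonneg _
  have κ0 : 0 ≤ κ := by positivity
  have lE : cC / 2 ^ ((E + (E₁ - E)) - 1) ≤ x₀ := (anti hC (by omega)).trans hE₁x
  have q4 : UN N s τ τ cC FA FB FC D D (E + (E₁ - E)) ≤ 9 * κ * x₀ := by
    refine tail3 (f := UN N s τ τ cC FA FB FC) hτ hτ hC κ0 hK (hDσ.trans hσx) (hDσ.trans hσx) lE
      (fun a b e ha h1 h2 => ?_) (fun a b e hb h1 h2 => ?_) (fun a b e he h1 h2 => ?_)
    · have hx : τ / 2 ^ (a - 1) ≤ x₀ := (anti hτ ha).trans (hDσ.trans hσx)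
      refine (UN_A hτ hτ hC capA capB capC a b e
        ((RP_mono (lc e) (la a) h2 le_rfl).trans (hCA _ (la a) hx))
        ((RP_mono (la a) (la b) le_rfl h1).trans (hAB _ (la a) (lτ a)))).trans ?_
      refine add_le_add_right ?_ _
      have h3 := key_sq hZ₂ hP₀ (by positivity) (la a)
        (le_refl (Z₂ * (τ / 2 ^ (a - 1)) ^ 2)) (le_refl (P₀ * (τ / 2 ^ (a - 1)) ^ 2))
      rw [mul_comm Z₂ P₀] at h3
      have h4 := mul_le_mul_of_nonneg_left h3 (by norm_num : (0 : ℝ) ≤ 6)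
      refine h4.trans ?_
      rw [← mul_assoc]
      exact mul_le_mul_of_nonneg_right (by rw [hκdef]; linarith) (la a).le
    · have hx : τ / 2 ^ (b - 1) ≤ x₀ := (anti hτ hb).trans (hDσ.trans hσx)
      refine (UN_B hτ hτ hC capA capB capC a b e
        ((RP_mono (la a) (la b) h1 le_rfl).trans (hAB _ (la b) (lτ b)))
        ((RP_mono (la b) (lc e) le_rfl h2).trans (hBC _ (la b) hx))).trans ?_
      refine add_le_add_right ?_ _
      have h3 := key_sq hP₀ hZ₁ (by positivity) (la b)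
        (le_refl (P₀ * (τ / 2 ^ (b - 1)) ^ 2)) (le_refl (Z₁ * (τ / 2 ^ (b - 1)) ^ 2))
      have h4 := mul_le_mul_of_nonneg_left h3 (by norm_num : (0 : ℝ) ≤ 6)
      refine h4.trans ?_
      rw [← mul_assoc]
      exact mul_le_mul_of_nonneg_right (by rw [hκdef]; linarith) (la b).le
    · have hx : cC / 2 ^ (e - 1) ≤ x₀ := (anti hC he).trans lE
      refine (UN_C hτ hτ hC capA capB capC a b e
        ((RP_mono (la b) (lc e) h2 le_rfl).trans (hBC _ (lc e) hx))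
        ((RP_mono (lc e) (la a) le_rfl h1).trans (hCA _ (lc e) hx))).trans ?_
      refine add_le_add_right ?_ _
      have h3 := key_sq hZ₁ hZ₂ (by positivity) (lc e)
        (le_refl (Z₁ * (cC / 2 ^ (e - 1)) ^ 2)) (le_refl (Z₂ * (cC / 2 ^ (e - 1)) ^ 2))
      have h4 := mul_le_mul_of_nonneg_left h3 (by norm_num : (0 : ℝ) ≤ 6)
      refine h4.trans ?_
      rw [← mul_assoc]
      exact mul_le_mul_of_nonneg_right (by rw [hκdef]; linarith) (lc e).le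
  -- sum
  have a1 : 6 * κ' * (E : ℝ) ≤ 6 * κ' * L₀ :=
    mul_le_mul_of_nonneg_left (by exact_mod_cast hE) (by positivity)
  have a2 : 6 * √(Z₀ * QB) * ((E₁ - E : ℕ) : ℝ) ≤ 6 * L₁ * √(Z₀ * QB) := by
    have : ((E₁ - E : ℕ) : ℝ) ≤ L₁ := by exact_mod_cast (Nat.sub_le E₁ E).trans hE₁
    have h1 := mul_le_mul_of_nonneg_left this (by positivity : 0 ≤ 6 * √(Z₀ * QB))
    linarith
  have a3 : 9 * κ * x₀ = 54 * (√(P₀ * Z₁) + √(P₀ * Z₂) + √(Z₁ * Z₂)) * x₀ := by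
    rw [hκdef]; ring
  rw [a3] at q4
  linarith

end

end Vale.Agent.P141.H750
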